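import Vale.Agent.P097.H795.D1.Lim

set_option linter.all false

/-!
# P097, disc case: limits of differences of graded sequences (LIM2)
-/

namespace Vale.Agent.P097.H795.D1

open Filter Set Metric Topology
open Vale.Agent.P097.D1G

section
variable {b R M : ℝ} {m : ℕ} {L : ℂ} {F : (ℤ → ℂ) → ℂ}

/-- difference of the values at the truncations of two solutions -/
theorem F_tr_sub_le (hF : Fun b R M m L F) {β C δ μ : ℝ} (hbβ : b < β) (hm : 1 ≤ m) {r : ℕ}
    (hmr : m ≤ r) (hC : 0 ≤ C) (hδ0 : 0 < δ) (hδ1 : δ ≤ 1) (hμ : 0 < μ) (hμ1 : μ ≤ 1)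
    {a a' : ℤ → ℂ}
    (hbd : ∀ k : ℤ, ‖a k‖ ≤ C * δ ^ min k.natAbs r * Real.exp (-(β * |(k : ℝ)|)))
    (hbd' : ∀ k : ℤ, ‖a' k‖ ≤ C * δ ^ min k.natAbs r * Real.exp (-(β * |(k : ℝ)|)))
    (hbdd : ∀ k : ℤ, ‖a k - a' k‖ ≤ C * μ * δ ^ min k.natAbs r * Real.exp (-(β * |(k : ℝ)|)))
    (hlow : ∀ k : ℤ, |k| ≤ 1 → a k = 0) (hlow' : ∀ k : ℤ, |k| ≤ 1 → a' k = 0)
    (hFa : F a = 0) (hFa' : F a' = 0) (hsm : C * Z (β - b) * δ ≤ R / 32) :
    ‖F (tr r a) - F (tr r a')‖ ≤ 320 * M / R ^ 2 * (C * Z (β - b)) ^ 2 * (μ * δ ^ (r + 1)) := by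
  have hR := hF.hR
  have hM := hF.hM
  have hZ := Z_nonneg (β - b)
  have hK : 0 ≤ C * Z (β - b) := mul_nonneg hC hZ
  have hCμ : 0 ≤ C * μ := mul_nonneg hC hμ.le
  have hlowd : ∀ k : ℤ, |k| ≤ 1 → (a - a') k = 0 := fun k hk => by
    rw [Pi.sub_apply, hlow k hk, hlow' k hk, sub_zero]
  have hbdd' : ∀ k : ℤ, ‖(a - a') k‖ ≤ C * μ * δ ^ min k.natAbs r *
      Real.exp (-(β * |(k : ℝ)|)) := hbdd
  -- x = tr a', u = tr (a - a'), v = tl a', w = tl (a - a')
  obtain ⟨sx, nx⟩ := sm_of_bound hbβ (graded_tr hC hδ0 hδ1 hbd' hlow')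
  obtain ⟨sv, nv⟩ := sm_of_bound hbβ (graded_tl hC hδ0 hδ1 hbd')
  obtain ⟨su, nu⟩ := sm_of_bound hbβ (graded_tr hCμ hδ0 hδ1 hbdd' hlowd)
  obtain ⟨sw, nw⟩ := sm_of_bound hbβ (graded_tl hCμ hδ0 hδ1 hbdd')
  set x := tr r a' with hx
  set v := a' - tr r a' with hv
  set u := tr r (a - a') with hu
  set w := (a - a') - tr r (a - a') with hw
  have hr1 : 1 ≤ r := hm.trans hmr
  have hd2 : δ ^ 2 ≤ δ := by nlinarith
  have hdr : δ ^ r ≤ δ := by
    calc δ ^ r ≤ δ ^ 1 := pow_le_pow_of_le_one hδ0.le hδ1 hr1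
      _ = δ := pow_one δ
  have cmp : ∀ {t : ℝ}, 0 ≤ t → t ≤ δ → C * t * Z (β - b) ≤ R / 32 := by
    intro t ht htd
    calc C * t * Z (β - b) = C * Z (β - b) * t := by ring
      _ ≤ C * Z (β - b) * δ := mul_le_mul_of_nonneg_left htd hK
      _ ≤ R / 32 := hsm
  have nx' : nm b x ≤ R / 32 := nx.trans (cmp (by positivity) hd2)
  have nv' : nm b v ≤ R / 32 := nv.trans (cmp (by positivity) hdr)
  have cmp2 : ∀ {t : ℝ}, 0 ≤ t → t ≤ δ → C * μ * t * Z (β - b) ≤ R / 32 := by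
    intro t ht htd
    refine le_trans ?_ (cmp ht htd)
    have : C * μ * t * Z (β - b) = μ * (C * t * Z (β - b)) := by ring
    rw [this]
    have h0 : 0 ≤ C * t * Z (β - b) := by positivity
    nlinarith
  have nu' : nm b u ≤ R / 32 := nu.trans (cmp2 (by positivity) hd2)
  have nw' : nm b w ≤ R / 32 := nw.trans (cmp2 (by positivity) hdr)
  have ea' : x + v = a' := by rw [hx, hv]; abel
  have ea : x + u + v + w = a := by
    rw [hx, hu, hv, hw, tr_sub]; abel
  have etr : x + u = tr r a := by rw [hx, hu, tr_sub]; abel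
  have h1 := mixF hF sx su sv (by linarith) (by linarith) (by linarith)
  set K := C * Z (β - b) with hKdef
  have bx : nm b x ≤ K * δ := by
    refine nx.trans ?_
    calc C * δ ^ 2 * Z (β - b) = K * δ ^ 2 := by rw [hKdef]; ring
      _ ≤ K * δ := mul_le_mul_of_nonneg_left hd2 hK
  have bv : nm b v ≤ K * δ ^ r := nv.trans (le_of_eq (by rw [hKdef]; ring))
  have bv' : nm b v ≤ K * δ := bv.trans (mul_le_mul_of_nonneg_left hdr hK)
  have bw : nm b w ≤ μ * (K * δ ^ r) := nw.trans (le_of_eq (by rw [hKdef]; ring))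
  have bu : nm b u ≤ μ * (K * δ) := by
    refine nu.trans ?_
    calc C * μ * δ ^ 2 * Z (β - b) = μ * (K * δ ^ 2) := by rw [hKdef]; ring
      _ ≤ μ * (K * δ) := mul_le_mul_of_nonneg_left (mul_le_mul_of_nonneg_left hd2 hK) hμ.le
  have bu' : nm b u ≤ K * δ := by
    refine bu.trans ?_
    have : 0 ≤ K * δ := by positivity
    nlinarith
  have bw' : nm b w ≤ K * δ := by
    refine bw.trans ?_
    have h0 : K * δ ^ r ≤ K * δ := mul_le_mul_of_nonneg_left hdr hK
    have h1 : 0 ≤ K * δ ^ r := by positivity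
    nlinarith
  have nxuv : nm b (x + u + v) ≤ 3 * (K * δ) := by
    have i1 := nm_add_le (sx.add su) sv
    have i2 := nm_add_le sx su
    linarith
  have h2 := P3 hF hm (x := x + u + v) (u := w) ((sx.add su).add sv) sw (by linarith)
    (by linarith)
  have hw0 : w (m : ℤ) = 0 := tl_low hmr (a - a')
  rw [ea, hFa, hw0, mul_zero, sub_zero, zero_sub, norm_neg] at h2
  rw [ea', hFa', sub_zero] at h1
  rw [← etr]
  have e1 : F (x + u) - F x = F (x + u + v) - (F (x + u + v) - F (x + u) + F x) := by ring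
  rw [e1]
  refine (norm_sub_le _ _).trans ?_
  have g1 : nm b w * (nm b (x + u + v) + nm b w) ≤ (μ * (K * δ ^ r)) * (4 * (K * δ)) :=
    mul_le_mul bw (by linarith) (add_nonneg (nm_nonneg _ _) (nm_nonneg _ _)) (by positivity)
  have g2 : nm b u * nm b v ≤ (μ * (K * δ)) * (K * δ ^ r) :=
    mul_le_mul bu bv (nm_nonneg _ _) (by positivity)
  have hMR : 0 ≤ 64 * M / R ^ 2 := by positivity
  calc ‖F (x + u + v)‖ + ‖F (x + u + v) - F (x + u) + F x‖
      ≤ 64 * M / R ^ 2 * (nm b w * (nm b (x + u + v) + nm b w)) +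
        64 * M / R ^ 2 * (nm b u * nm b v) := by
        refine add_le_add (h2.trans (le_of_eq (by ring))) (h1.trans (le_of_eq (by ring)))
    _ ≤ 64 * M / R ^ 2 * ((μ * (K * δ ^ r)) * (4 * (K * δ))) +
        64 * M / R ^ 2 * ((μ * (K * δ)) * (K * δ ^ r)) :=
        add_le_add (mul_le_mul_of_nonneg_left g1 hMR) (mul_le_mul_of_nonneg_left g2 hMR)
    _ = _ := by rw [pow_succ]; ring

/-- rotation of the truncation -/
theorem F_rot_tr (hF : Fun b R M m L F) (hb : 0 < b) {r : ℕ} {a : ℤ → ℂ} {s : ℂ} (h0 : s ≠ 0)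
    {δ : ℝ} (hδ : 0 < δ) (h1 : nm b (tr r a) < R) (h2 : nm b (D1G.rot (s / δ) (tr r a)) < R) :
    F (D1G.rot (s / δ) (tr r a)) = (s / δ) ^ m * F (tr r a) := by
  have hlam : s / (δ : ℂ) ≠ 0 := div_ne_zero h0 (by exact_mod_cast hδ.ne')
  refine hF.rot (s / δ) hlam (tr r a) (sm_tr hb.le r _) ?_ h1 h2
  rw [rot_tr]
  exact sm_tr hb.le r _

end

theorem rot_add (lam : ℂ) (x y : ℤ → ℂ) : D1G.rot lam (x + y) = D1G.rot lam x + D1G.rot lam y := by
  funext k
  simp only [D1G.rot, Pi.add_apply]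
  ring

theorem rot_smul (lam t : ℂ) (x : ℤ → ℂ) : D1G.rot lam (t • x) = t • D1G.rot lam x := by
  funext k
  simp only [D1G.rot, Pi.smul_apply, smul_eq_mul]
  ring

theorem lim2 : D1G.LIM2 := by
  intro b β R M m L F hb hbβ hm hF a a' δ μ C r c g hmr hδ hμ hδ0 hbd hbd' hbdd hlow hlow'
    hFa hFa' hμ0 hc hg
  have hR := hF.hR
  have hM := hF.hM
  have hβ : 0 ≤ β := (hb.trans hbβ).le
  have hC : 0 ≤ C := by
    have h := (norm_nonneg _).trans (hbd 0 0)
    simpa using h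
  have hZ := Z_nonneg (β - b)
  have hbd1 : ∀ j k, ‖a' j k‖ ≤ C * (1 : ℝ) * δ j ^ min k.natAbs r *
      Real.exp (-(β * |(k : ℝ)|)) := fun j k => by rw [mul_one]; exact hbd' j k
  have hc1 : ∀ k : ℕ, Tendsto (fun j => a' j k / (((1 : ℝ) : ℂ) * (δ j : ℂ) ^ k)) atTop
      (𝓝 (c k)) := fun k => by simpa using hc k
  have hc0 : c 0 = 0 := by
    have h1 : Tendsto (fun j => a' j ((0 : ℕ) : ℤ) / (δ j : ℂ) ^ 0) atTop (𝓝 0) := by
      refine tendsto_const_nhds.congr fun j => ?_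
      rw [Nat.cast_zero, hlow' j 0 (by simp), zero_div]
    exact tendsto_nhds_unique (hc 0) h1
  have hg0 : g 0 = 0 := by
    have h1 : Tendsto (fun j => (a j ((0 : ℕ) : ℤ) - a' j ((0 : ℕ) : ℤ)) /
        ((μ j : ℂ) * (δ j : ℂ) ^ 0)) atTop (𝓝 0) := by
      refine tendsto_const_nhds.congr fun j => ?_
      rw [Nat.cast_zero, hlow' j 0 (by simp), hlow j 0 (by simp), sub_zero, zero_div]
    exact tendsto_nhds_unique (hg 0) h1
  set d : ℕ → ℤ → ℂ := fun j => a j - a' j with hd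
  have hbdd1 : ∀ j k, ‖d j k‖ ≤ C * μ j * δ j ^ min k.natAbs r *
      Real.exp (-(β * |(k : ℝ)|)) := fun j k => hbdd j k
  have hg1 : ∀ k : ℕ, Tendsto (fun j => d j k / ((μ j : ℂ) * (δ j : ℂ) ^ k)) atTop
      (𝓝 (g k)) := fun k => hg k
  have hcb : ∀ k : ℕ, k ≤ r → ‖c k‖ ≤ C * Real.exp (-(β * (k : ℝ))) := fun k hk =>
    lim_bound (ν := fun _ => 1) hδ (fun _ => one_pos) hbd1 hc1 k hk
  have hgb : ∀ k : ℕ, k ≤ r → ‖g k‖ ≤ C * Real.exp (-(β * (k : ℝ))) := fun k hk =>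
    lim_bound (ν := μ) hδ hμ hbdd1 hg1 k hk
  set K := C * Z (β - b) with hK
  have hK0 : 0 ≤ K := mul_nonneg hC hZ
  refine ⟨min 1 (R / (32 * (K + 1))), by positivity, fun s hs h0 => ?_⟩
  have hs1 : ‖s‖ ≤ 1 := (hs.trans_le (min_le_left _ _)).le
  have hs2 : ‖s‖ ≤ R / (32 * (K + 1)) := (hs.trans_le (min_le_right _ _)).le
  have hKs : C * ‖s‖ * Z (β - b) ≤ R / 32 := by
    calc C * ‖s‖ * Z (β - b) = K * ‖s‖ := by rw [hK]; ring
      _ ≤ (K + 1) * (R / (32 * (K + 1))) :=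
        mul_le_mul (by linarith) hs2 (norm_nonneg _) (by linarith)
      _ = R / 32 := by field_simp
  obtain ⟨sX, nX⟩ := os_small hbβ hC hc0 hcb hs1
  obtain ⟨sG, nG⟩ := os_small hbβ hC hg0 hgb hs1
  have hlimX := rot_tendsto (b := b) hb.le hβ (ν := fun _ => 1) hδ hδ0 (fun _ => one_pos)
    hbd1 hc1 h0
  simp only [Complex.ofReal_one, inv_one, one_smul] at hlimX
  have hlimG := rot_tendsto (b := b) hb.le hβ (ν := μ) hδ hδ0 hμ hbdd1 hg1 h0
  set X := D1G.rot s (tr r (os c)) with hX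
  set G := D1G.rot s (tr r (os g)) with hG
  have nX' : nm b X ≤ R / 32 := nX.trans hKs
  have nG' : nm b G ≤ R / 32 := nG.trans hKs
  set x : ℕ → ℤ → ℂ := fun j => D1G.rot (s / δ j) (tr r (a' j)) with hx
  set y : ℕ → ℤ → ℂ := fun j => D1G.rot (s / δ j) (tr r ((μ j : ℂ)⁻¹ • d j)) with hy
  have sx : ∀ j, Sm b (x j) := fun j => by
    simp only [hx]
    rw [rot_tr]
    exact sm_tr hb.le r _
  have sy : ∀ j, Sm b (y j) := fun j => by
    simp only [hy]
    rw [rot_tr]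
    exact sm_tr hb.le r _
  have hxy : ∀ j, x j + (μ j : ℂ) • y j = D1G.rot (s / δ j) (tr r (a j)) := by
    intro j
    have hn : (μ j : ℂ) ≠ 0 := by exact_mod_cast (hμ j).ne'
    simp only [hx, hy]
    rw [← rot_smul, ← rot_add, ← tr_smul, ← tr_add, smul_smul, mul_inv_cancel₀ hn, one_smul]
    simp only [hd]
    rw [add_sub_cancel]
  -- eventually everything is small
  have ev1 : ∀ᶠ j in atTop, δ j < 1 := hδ0.eventually_lt_const one_pos
  have ev2 : ∀ᶠ j in atTop, K * δ j < R / 32 := by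
    have : Tendsto (fun j => K * δ j) atTop (𝓝 0) := by
      have := hδ0.const_mul K
      rwa [mul_zero] at this
    exact this.eventually_lt_const (by positivity)
  have ev3 : ∀ᶠ j in atTop, μ j < 1 := hμ0.eventually_lt_const one_pos
  have ev4 : ∀ᶠ j in atTop, nm b (x j - X) < R / 32 := hlimX.eventually_lt_const (by positivity)
  have ev5 : ∀ᶠ j in atTop, nm b (y j - G) < R / 32 := hlimG.eventually_lt_const (by positivity)
  have nx : ∀ {j}, nm b (x j - X) < R / 32 → nm b (x j) ≤ R / 16 := by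
    intro j hj
    have h5 := nm_add_le sX ((sx j).sub sX)
    rw [add_sub_cancel] at h5
    linarith
  have ny : ∀ {j}, nm b (y j - G) < R / 32 → nm b (y j) ≤ R / 16 := by
    intro j hj
    have h5 := nm_add_le sG ((sy j).sub sG)
    rw [add_sub_cancel] at h5
    linarith
  set f : ℂ → ℂ := fun t => F (X + t • G) with hf
  set fj : ℕ → ℂ → ℂ := fun j t => F (x j + t • y j) with hfj
  have fd : DifferentiableOn ℂ f (ball 0 1) :=
    (line_diff hF sX sG (ρ := 1) (by linarith) one_pos (by linarith)).1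
  have fjd : ∀ᶠ j in atTop, DifferentiableOn ℂ (fj j) (ball 0 1) := by
    filter_upwards [ev4, ev5] with j h4 h5
    have := nx h4
    have := ny h5
    exact (line_diff hF (sx j) (sy j) (ρ := 1) (by linarith) one_pos (by linarith)).1
  have hunif : TendstoUniformlyOn fj f atTop (ball 0 1) := by
    rw [Metric.tendstoUniformlyOn_iff]
    intro ε hε
    have h1 : Tendsto (fun j => 4 * M / R * (nm b (x j - X) + nm b (y j - G))) atTop (𝓝 0) := by
      have := (hlimX.add hlimG).const_mul (4 * M / R)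
      rwa [add_zero, mul_zero] at this
    filter_upwards [h1.eventually_lt_const hε, ev4, ev5] with j hj h4 h5 t ht
    rw [mem_ball_zero_iff] at ht
    have hXG : nm b (X + t • G) ≤ R / 4 := by
      have h2 := nm_add_le sX (sG.smul t)
      rw [nm_smul] at h2
      have h3 : ‖t‖ * nm b G ≤ 1 * nm b G := mul_le_mul_of_nonneg_right ht.le (nm_nonneg _ _)
      linarith
    have hu : nm b ((x j - X) + t • (y j - G)) ≤ nm b (x j - X) + nm b (y j - G) := by
      have h2 := nm_add_le ((sx j).sub sX) (((sy j).sub sG).smul t)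
      rw [nm_smul] at h2
      have h3 : ‖t‖ * nm b (y j - G) ≤ 1 * nm b (y j - G) :=
        mul_le_mul_of_nonneg_right ht.le (nm_nonneg _ _)
      linarith
    have h6 := lipF hF (sX.add (sG.smul t)) (((sx j).sub sX).add (((sy j).sub sG).smul t)) hXG
      (by linarith)
    have e1 : X + t • G + (x j - X + t • (y j - G)) = x j + t • y j := by
      rw [smul_sub]; abel
    rw [e1] at h6
    rw [dist_comm, dist_eq_norm]
    refine (h6.trans (mul_le_mul_of_nonneg_left hu (by positivity))).trans_lt hj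
  have hder : Tendsto (fun j => deriv (fj j) 0) atTop (𝓝 (deriv f 0)) :=
    (hunif.tendstoLocallyUniformlyOn.deriv fjd isOpen_ball).tendsto_at (mem_ball_self one_pos)
  have hder0 : Tendsto (fun j => deriv (fj j) 0) atTop (𝓝 0) := by
    rw [tendsto_zero_iff_norm_tendsto_zero]
    have h1 : Tendsto (fun j => 320 * M / R ^ 2 * K ^ 2 * δ j + M * μ j) atTop (𝓝 0) := by
      have := (hδ0.const_mul (320 * M / R ^ 2 * K ^ 2)).add (hμ0.const_mul M)
      rwa [mul_zero, mul_zero, add_zero] at this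
    refine squeeze_zero' (Eventually.of_forall fun j => norm_nonneg _) ?_ h1
    filter_upwards [ev1, ev2, ev3, ev4, ev5, fjd] with j h1 h2 h3 h4 h5 h6
    have hdj := hδ j
    have hmj := hμ j
    have nxj := nx h4
    have nyj := ny h5
    have hmj' : (μ j : ℂ) ≠ 0 := by exact_mod_cast hmj.ne'
    have hnμ : ‖(μ j : ℂ)‖ = μ j := by rw [Complex.norm_real, Real.norm_of_nonneg hmj.le]
    -- second order estimate
    have hD : HasDerivAt (fj j) (deriv (fj j) 0) 0 :=
      (h6.differentiableAt (isOpen_ball.mem_nhds (mem_ball_self one_pos))).hasDerivAt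
    have hD2 : HasDerivAt (fun t : ℂ => F (x j + t • ((μ j : ℂ) • y j)))
        (deriv (fj j) 0 * μ j) 0 := by
      have i1 : HasDerivAt (fun t : ℂ => t * (μ j : ℂ)) (μ j : ℂ) 0 := by
        simpa using (hasDerivAt_id (0 : ℂ)).mul_const (μ j : ℂ)
      have i2 : HasDerivAt (fj j) (deriv (fj j) 0) ((0 : ℂ) * (μ j : ℂ)) := by
        rw [zero_mul]; exact hD
      have i3 := i2.comp (0 : ℂ) i1
      have e1 : (fj j ∘ fun t : ℂ => t * (μ j : ℂ)) =
          fun t : ℂ => F (x j + t • ((μ j : ℂ) • y j)) := by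
        funext t
        simp only [Function.comp, hfj, smul_smul]
      rw [e1] at i3
      exact i3
    have nμy : nm b ((μ j : ℂ) • y j) ≤ μ j * (R / 16) := by
      rw [nm_smul, hnμ]
      exact mul_le_mul_of_nonneg_left nyj hmj.le
    have hq := quadF hF (sx j) ((sy j).smul (μ j : ℂ)) (by linarith)
      (nμy.trans (by nlinarith)) hD2
    rw [hxy] at hq
    -- first difference
    have na : ∀ (z : ℤ → ℂ), (∀ k : ℤ, ‖z k‖ ≤ C * δ j ^ min k.natAbs r *
        Real.exp (-(β * |(k : ℝ)|))) → (∀ k : ℤ, |k| ≤ 1 → z k = 0) → nm b (tr r z) < R := by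
      intro z hz hz0
      obtain ⟨s1, n1⟩ := sm_of_bound hbβ (graded_tr hC hdj h1.le hz hz0)
      have hd2 : δ j ^ 2 ≤ δ j := by nlinarith
      have : C * δ j ^ 2 * Z (β - b) ≤ K * δ j := by
        calc C * δ j ^ 2 * Z (β - b) = K * δ j ^ 2 := by rw [hK]; ring
          _ ≤ K * δ j := mul_le_mul_of_nonneg_left hd2 hK0
      linarith
    have r1 := F_rot_tr hF hb h0 hdj (na _ (hbd j) (hlow j)) (r := r) (by
      rw [← hxy]
      have := nm_add_le (sx j) ((sy j).smul (μ j : ℂ))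
      have : μ j * (R / 16) ≤ R / 16 := by nlinarith
      linarith)
    have r2 := F_rot_tr hF hb h0 hdj (na _ (hbd' j) (hlow' j)) (r := r) (by
      have : nm b (x j) ≤ R / 16 := nxj
      simp only [hx] at this
      linarith)
    have r3 := F_tr_sub_le hF hbβ hm hmr hC hdj h1.le hmj h3.le (hbd j) (hbd' j) (hbdd j)
      (hlow j) (hlow' j) (hFa j) (hFa' j) h2.le
    have r4 : ‖F (D1G.rot (s / δ j) (tr r (a j))) - F (x j)‖ ≤
        320 * M / R ^ 2 * K ^ 2 * (μ j * δ j) := by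
      have e1 : F (D1G.rot (s / δ j) (tr r (a j))) - F (x j) =
          (s / δ j) ^ m * (F (tr r (a j)) - F (tr r (a' j))) := by
        rw [r1]
        simp only [hx]
        rw [r2]
        ring
      rw [e1, norm_mul, norm_pow, norm_div, Complex.norm_real, Real.norm_of_nonneg hdj.le]
      have h7 : (‖s‖ / δ j) ^ m ≤ (1 / δ j) ^ m :=
        pow_le_pow_left₀ (by positivity) (div_le_div_of_nonneg_right hs1 hdj.le) m
      have h8 : (1 / δ j) ^ m * δ j ^ (r + 1) ≤ δ j := by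
        have h9 : (1 / δ j) ^ m * δ j ^ (r + 1) = δ j ^ (r - m) * δ j := by
          have e : r + 1 = m + (r - m) + 1 := by omega
          rw [e, pow_succ, pow_add, one_div, inv_pow]
          field_simp
        rw [h9]
        have : δ j ^ (r - m) ≤ 1 := pow_le_one₀ hdj.le h1.le
        nlinarith
      calc (‖s‖ / δ j) ^ m * ‖F (tr r (a j)) - F (tr r (a' j))‖
          ≤ (1 / δ j) ^ m * (320 * M / R ^ 2 * K ^ 2 * (μ j * δ j ^ (r + 1))) :=
            mul_le_mul h7 r3 (norm_nonneg _) (by positivity)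
        _ = 320 * M / R ^ 2 * K ^ 2 * μ j * ((1 / δ j) ^ m * δ j ^ (r + 1)) := by ring
        _ ≤ 320 * M / R ^ 2 * K ^ 2 * μ j * δ j := mul_le_mul_of_nonneg_left h8 (by positivity)
        _ = _ := by ring
    have r5 : ‖deriv (fj j) 0 * μ j‖ ≤ 320 * M / R ^ 2 * K ^ 2 * (μ j * δ j) +
        16 * M / R ^ 2 * nm b ((μ j : ℂ) • y j) ^ 2 := by
      have e1 : deriv (fj j) 0 * μ j = (F (D1G.rot (s / δ j) (tr r (a j))) - F (x j)) -
          (F (D1G.rot (s / δ j) (tr r (a j))) - F (x j) - deriv (fj j) 0 * μ j) := by ring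
      rw [e1]
      exact (norm_sub_le _ _).trans (add_le_add r4 hq)
    have r6 : 16 * M / R ^ 2 * nm b ((μ j : ℂ) • y j) ^ 2 ≤ M * μ j * μ j := by
      have i1 : nm b ((μ j : ℂ) • y j) ^ 2 ≤ (μ j * (R / 16)) ^ 2 :=
        pow_le_pow_left₀ (nm_nonneg _ _) nμy 2
      calc 16 * M / R ^ 2 * nm b ((μ j : ℂ) • y j) ^ 2
          ≤ 16 * M / R ^ 2 * (μ j * (R / 16)) ^ 2 := mul_le_mul_of_nonneg_left i1 (by positivity)
        _ = M * μ j * μ j / 16 := by field_simp
        _ ≤ M * μ j * μ j := by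
          have : 0 ≤ M * μ j * μ j := by positivity
          linarith
    rw [norm_mul, hnμ] at r5
    have r7 : ‖deriv (fj j) 0‖ * μ j ≤ (320 * M / R ^ 2 * K ^ 2 * δ j + M * μ j) * μ j := by
      calc _ ≤ 320 * M / R ^ 2 * K ^ 2 * (μ j * δ j) + M * μ j * μ j := r5.trans (by linarith)
        _ = _ := by ring
    exact le_of_mul_le_mul_right r7 hmj
  have hzero : deriv f 0 = 0 := tendsto_nhds_unique hder hder0
  have h := (fd.differentiableAt (isOpen_ball.mem_nhds (mem_ball_self one_pos))).hasDerivAt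
  rw [hzero] at h
  exact h

end Vale.Agent.P097.H795.D1
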