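import Vale.Agent.P097.H795.D1.Hol
import Vale.Agent.P097.H500.G.Out

set_option linter.all false

/-!
# P097, disc case, D1a: the core in the form used by the functional
-/

namespace Vale.Agent.P097.H795.D1

open Complex Metric Finset Filter Topology Vale.Agent.P097.H500.G

variable {n : ℕ} {α b e : ℝ}

theorem coreAt_of_num (h : Num n α b e) : CoreAt n α b e (4 * n) (cv n α) where
  bdd := fun G h1 h2 => cv_le h ⟨h1, h2⟩
  hol := fun T G hT h1 h2 => cv_dif h (G := fun j t w => G t j w) ⟨hT, h1, h2⟩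
  der := by
    intro G h1 h2
    have hF : Fam n b e (ball (0 : ℂ) 1) (fun j t w => t * G j w) := by
      refine ⟨isOpen_ball, fun j hj => ?_, fun t ht j hj w hw => ?_⟩
      · refine differentiableOn_fst.mul ?_
        exact (h1 j hj).comp differentiableOn_snd fun p hp => hp.2
      · rw [norm_mul]
        have h3 : ‖t‖ ≤ 1 := (mem_ball_zero_iff.1 ht).le
        have h4 := h2 j hj w hw
        have h5 := norm_nonneg (G j w)
        nlinarith [norm_nonneg t]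
    have h3 := cv_hasDerivAt_zero h hF (mem_ball_self one_pos) fun j hj w hw => zero_mul _
    refine h3.congr_deriv ?_
    congr 1
    refine sum_congr rfl fun j _ => ?_
    have h4 : HasDerivAt (fun s : ℂ => s * G j 0) (G j 0) 0 := by
      simpa using (hasDerivAt_id (0 : ℂ)).mul_const (G j 0)
    exact h4.deriv

theorem two_div_le_sin {p : ℕ} (hp : 0 < p) (hpn : p < n) :
    2 / (n : ℝ) ≤ Real.sin (Real.pi * p / n) := by
  have hn : (0 : ℝ) < n := by exact_mod_cast hp.trans hpn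
  have hp1 : (1 : ℝ) ≤ p := by exact_mod_cast hp
  have hpn' : (p : ℝ) + 1 ≤ n := by exact_mod_cast hpn
  have hπ := Real.pi_pos
  have key : ∀ x : ℝ, 0 ≤ x → x ≤ Real.pi / 2 → 2 / Real.pi * x ≤ Real.sin x := fun x h0 h1 =>
    Real.mul_le_sin h0 h1
  rcases le_total (Real.pi * p / n) (Real.pi / 2) with h | h
  · refine le_trans ?_ (key _ (by positivity) h)
    have e1 : 2 / Real.pi * (Real.pi * p / n) = 2 * p / n := by field_simp
    rw [e1, div_le_div_iff_of_pos_right hn]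
    linarith
  · have h2 := key (Real.pi - Real.pi * p / n) (by
      rw [sub_nonneg, div_le_iff₀ hn]
      nlinarith) (by linarith)
    rw [Real.sin_pi_sub] at h2
    refine le_trans ?_ h2
    have e1 : 2 / Real.pi * (Real.pi - Real.pi * p / n) = 2 * ((n : ℝ) - p) / n := by
      field_simp
    rw [e1, div_le_div_iff_of_pos_right hn]
    linarith

theorem num_of {p : ℕ} (hp : 0 < p) (hpn : p < n) (hb : 0 < b) (hb1 : b ≤ 1) (he : 0 ≤ e)
    (hsm : e ≤ b ^ 2 / (1280 * (n : ℝ) ^ 6)) : Num n (Real.pi * p / n) b e := by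
  have hn : (0 : ℝ) < n := by exact_mod_cast hp.trans hpn
  have hs := two_div_le_sin hp hpn
  have h2 : (0 : ℝ) < 2 / n := by positivity
  refine ⟨hp.trans hpn, hb, hb1, he, h2.trans_le hs, hsm.trans ?_⟩
  have h3 : (2 / (n : ℝ)) ^ 2 ≤ Real.sin (Real.pi * p / n) ^ 2 := pow_le_pow_left₀ h2.le hs 2
  have e1 : b ^ 2 / (1280 * (n : ℝ) ^ 6) = b ^ 2 * (2 / (n : ℝ)) ^ 2 / (5120 * (n : ℝ) ^ 4) := by
    field_simp
    ring
  rw [e1]
  gcongr

/-- **the core** for `0 < p < n` -/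
theorem coreAt {p : ℕ} (hp : 0 < p) (hpn : p < n) (hb : 0 < b) (hb1 : b ≤ 1) :
    CoreAt n (Real.pi * p / n) b (b ^ 2 / (1280 * (n : ℝ) ^ 6)) (4 * n)
      (cv n (Real.pi * p / n)) :=
  coreAt_of_num (num_of hp hpn hb hb1 (by positivity) le_rfl)

/-- the functional for `0 < p < n`, any weight `m` -/
theorem fun_np {p : ℕ} (hp : 0 < p) (hpn : p < n) (hb : 0 < b) (hb1 : b ≤ 1) (m : ℕ) :
    D1G.Fun b (b ^ 2 / (10240 * (n : ℝ) ^ 6)) (4 * n) m (Lc n (Real.pi * p / n) m)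
      (FM (cv n (Real.pi * p / n)) (Real.pi * p / n) m) := by
  have hn : (0 : ℝ) < n := by exact_mod_cast hp.trans hpn
  have hn1 : (1 : ℝ) ≤ n := by exact_mod_cast hp.trans hpn
  have h1 := coreAt (n := n) hp hpn (b := b / 2) (by positivity) (by linarith)
  have h2 := toFun h1 hb (by positivity) (by linarith) m
  have e1 : (b / 2) ^ 2 / (1280 * (n : ℝ) ^ 6) / 2 = b ^ 2 / (10240 * (n : ℝ) ^ 6) := by
    field_simp
    ring
  rwa [e1] at h2

theorem fun_mono {b R M R' M' : ℝ} {m : ℕ} {L : ℂ} {F : (ℤ → ℂ) → ℂ} (h : D1G.Fun b R M m L F)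
    (hR : 0 < R') (hRR : R' ≤ R) (hM : M ≤ M') : D1G.Fun b R' M' m L F where
  hR := hR
  hM := h.hM.trans hM
  bd := fun a ha hn => (h.bd a ha (hn.trans_le hRR)).trans hM
  hol := fun a c ha hc => (h.hol a c ha hc).mono fun t ht => lt_of_lt_of_le ht hRR
  rot := fun lam hl a ha hr h1 h2 => h.rot lam hl a ha hr (h1.trans_le hRR) (h2.trans_le hRR)
  lin := h.lin

/-- the functionals of the pair -/
noncomputable def Fp (n : ℕ) : (ℤ → ℂ) → ℂ := FM (cv n (Real.pi / n)) (Real.pi / n) n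

/-- `Pair.hF` -/
theorem pair_hF {C₀ : ℕ} (hC : 10240 ≤ C₀) (hb : 0 < b) (hb1 : b ≤ 1) (hn : 2 ≤ n) :
    D1G.Fun b (b ^ C₀ / ((C₀ : ℝ) * n ^ C₀)) ((C₀ : ℝ) * n ^ C₀ / b ^ C₀) n
      (Lc n (Real.pi / n) n) (Fp n) := by
  have h1 := fun_np (n := n) (p := 1) one_pos (by omega) hb hb1 n
  have e1 : Real.pi * ((1 : ℕ) : ℝ) / n = Real.pi / n := by push_cast; rw [mul_one]
  rw [e1] at h1
  have hn1 : (1 : ℝ) ≤ n := by exact_mod_cast (by omega : 1 ≤ n)
  have hn0 : (0 : ℝ) < n := by linarith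
  have hC' : (10240 : ℝ) ≤ C₀ := by exact_mod_cast hC
  have hbC : b ^ C₀ ≤ b ^ 2 := pow_le_pow_of_le_one hb.le hb1 (by omega)
  have hnC : (n : ℝ) ^ 6 ≤ (n : ℝ) ^ C₀ := pow_le_pow_right₀ hn1 (by omega)
  have hn6 : (0 : ℝ) < (n : ℝ) ^ 6 := by positivity
  refine fun_mono h1 ?_ ?_ ?_
  · positivity
  · have h2 : 10240 * (n : ℝ) ^ 6 ≤ (C₀ : ℝ) * (n : ℝ) ^ C₀ :=
      mul_le_mul hC' hnC hn6.le (by positivity)
    exact div_le_div₀ (by positivity) hbC (by positivity) h2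
  · have h3 : (n : ℝ) ≤ (n : ℝ) ^ C₀ := le_self_pow₀ hn1 (by omega)
    have h4 : 4 * (n : ℝ) ≤ (C₀ : ℝ) * (n : ℝ) ^ C₀ :=
      mul_le_mul (by linarith) h3 hn0.le (by positivity)
    refine h4.trans ?_
    rw [le_div_iff₀ (by positivity)]
    have h5 : b ^ C₀ ≤ 1 := pow_le_one₀ hb.le hb1
    have h6 : 0 ≤ (C₀ : ℝ) * (n : ℝ) ^ C₀ := by positivity
    nlinarith

/-- `Pair.hL` -/
theorem pair_hL {C₀ : ℕ} (hC : 1 ≤ C₀) (hn : 2 ≤ n) :
    1 ≤ (C₀ : ℝ) * n ^ C₀ * ‖Lc n (Real.pi / n) n‖ := by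
  rw [Lc_self (by omega), norm_neg, Complex.norm_real]
  have h2 := two_le hn
  rw [Real.norm_of_nonneg (by linarith)]
  have hn1 : (1 : ℝ) ≤ n := by exact_mod_cast (by omega : 1 ≤ n)
  have h1 : (1 : ℝ) ≤ (C₀ : ℝ) * (n : ℝ) ^ C₀ := by
    have h3 : (1 : ℝ) ≤ (n : ℝ) ^ C₀ := one_le_pow₀ hn1
    have h4 : (1 : ℝ) ≤ C₀ := by exact_mod_cast hC
    nlinarith
  nlinarith

end Vale.Agent.P097.H795.D1
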