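import Vale.Agent.P097.H795.D1.Est

set_option linter.all false

/-!
# P097, disc case, D1a: existence and uniqueness of the critical polygon
-/

namespace Vale.Agent.P097.H795.D1

open Complex Metric Finset Filter Topology

/-- the Picard iterates -/
noncomputable def pic (n : ℕ) (α : ℝ) (G : ℕ → ℂ → ℂ) : ℕ → ℕ → ℂ
  | 0 => fun _ => 0
  | k + 1 => Sv n (Nl α G (pic n α G k))

/-- the critical polygon (displacements) -/
noncomputable def cu (n : ℕ) (α : ℝ) (G : ℕ → ℂ → ℂ) (i : ℕ) : ℂ :=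
  if i ≤ n then limUnder atTop (fun k => pic n α G k i) else 0

/-- the critical value -/
noncomputable def cv (n : ℕ) (α : ℝ) (G : ℕ → ℂ → ℂ) : ℂ := Ac n α G (cu n α G)

/-- the numerical assumptions -/
structure Num (n : ℕ) (α b e : ℝ) : Prop where
  hn : 0 < n
  hb : 0 < b
  hb1 : b ≤ 1
  he : 0 ≤ e
  hs : 0 < Real.sin α
  sm : e ≤ b ^ 2 * Real.sin α ^ 2 / (5120 * (n : ℝ) ^ 4)

/-- radius of uniqueness -/
noncomputable def rho (n : ℕ) (α b : ℝ) : ℝ := b * Real.sin α / (64 * (n : ℝ) ^ 2)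

/-- size of the critical polygon -/
noncomputable def rr (n : ℕ) (α b e : ℝ) : ℝ := 80 * (n : ℝ) ^ 2 * e / (b * Real.sin α)

variable {n : ℕ} {α b e : ℝ} {G : ℕ → ℂ → ℂ}

theorem rho_pos (h : Num n α b e) : 0 < rho n α b := by
  have := h.hb
  have := h.hs
  have : (0 : ℝ) < n := by exact_mod_cast h.hn
  unfold rho
  positivity

theorem rr_nonneg (h : Num n α b e) : 0 ≤ rr n α b e := by
  have := h.hb
  have := h.hs
  have := h.he
  unfold rr
  positivity

theorem rr_le (h : Num n α b e) : rr n α b e ≤ rho n α b := by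
  have hb := h.hb
  have hs := h.hs
  have hn : (0 : ℝ) < n := by exact_mod_cast h.hn
  have h1 := h.sm
  rw [le_div_iff₀ (by positivity)] at h1
  unfold rr rho
  rw [div_le_div_iff₀ (by positivity) (by positivity)]
  nlinarith [h1]

theorem rho_le (h : Num n α b e) : rho n α b ≤ b / 4 := by
  have hb := h.hb
  have hs := h.hs
  have hn : (1 : ℝ) ≤ n := by exact_mod_cast h.hn
  have hs1 := Real.sin_le_one α
  unfold rho
  rw [div_le_div_iff₀ (by positivity) (by norm_num)]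
  have h1 : b * Real.sin α ≤ b := by nlinarith
  have h2 : (1 : ℝ) ≤ (n : ℝ) ^ 2 := by nlinarith
  nlinarith

theorem factor_le (h : Num n α b e) :
    2 * (n : ℝ) ^ 2 * (2 / Real.sin α * (4 * rho n α b + 164 * e / b ^ 2)) ≤ 1 / 2 := by
  have hb := h.hb
  have hs := h.hs
  have hn : (1 : ℝ) ≤ n := by exact_mod_cast h.hn
  have hs1 := Real.sin_le_one α
  have h1 := h.sm
  have hn2 : (1 : ℝ) ≤ (n : ℝ) ^ 2 := by nlinarith
  have e1 : 2 * (n : ℝ) ^ 2 * (2 / Real.sin α * (4 * rho n α b)) = b / 4 := by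
    unfold rho
    field_simp
    ring
  have e2 : 2 * (n : ℝ) ^ 2 * (2 / Real.sin α * (164 * e / b ^ 2)) =
      656 * ((n : ℝ) ^ 2 * e) / (Real.sin α * b ^ 2) := by
    field_simp
    ring
  have e3 : 656 * ((n : ℝ) ^ 2 * e) / (Real.sin α * b ^ 2) ≤ 1 / 4 := by
    rw [div_le_div_iff₀ (by positivity) (by norm_num)]
    rw [le_div_iff₀ (by positivity)] at h1
    have h3 : (n : ℝ) ^ 2 * e * 5120 * (n : ℝ) ^ 2 ≤ b ^ 2 * Real.sin α ^ 2 := by nlinarith
    have h4 : (n : ℝ) ^ 2 * e * 5120 ≤ (n : ℝ) ^ 2 * e * 5120 * (n : ℝ) ^ 2 := by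
      have : 0 ≤ (n : ℝ) ^ 2 * e * 5120 := by have := h.he; positivity
      nlinarith
    have h5 : b ^ 2 * Real.sin α ^ 2 ≤ b ^ 2 * Real.sin α := by
      have : Real.sin α ^ 2 ≤ Real.sin α := by nlinarith
      exact mul_le_mul_of_nonneg_left this (by positivity)
    nlinarith
  have hb1 := h.hb1
  rw [mul_add, mul_add, e1, e2]
  linarith

theorem T_lip (h : Num n α b e) (hG : Adm n b e G) {u v : ℕ → ℂ} {δ : ℝ} (hδ : 0 ≤ δ)
    (hu : ∀ i ≤ n, ‖u i‖ ≤ rho n α b) (hv : ∀ i ≤ n, ‖v i‖ ≤ rho n α b)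
    (hd : ∀ i ≤ n, ‖u i - v i‖ ≤ δ) {i : ℕ} (hi : i ≤ n) :
    ‖Sv n (Nl α G u) i - Sv n (Nl α G v) i‖ ≤ δ / 2 := by
  have hb := h.hb
  have hs := h.hs
  have he := h.he
  have hρ := rho_pos h
  rw [← Sv_sub]
  refine (Sv_bound (F := 2 / Real.sin α * ((4 * rho n α b + 164 * e / b ^ 2) * δ))
    (by positivity) h.hn.ne' (fun j hj => Nl_lip hb h.hb1 he hs (rho_le h) hG hu hv hd hj)
    hi).trans ?_
  have h1 := mul_le_mul_of_nonneg_right (factor_le h) hδ
  calc 2 * (n : ℝ) ^ 2 * (2 / Real.sin α * ((4 * rho n α b + 164 * e / b ^ 2) * δ))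
      = 2 * (n : ℝ) ^ 2 * (2 / Real.sin α * (4 * rho n α b + 164 * e / b ^ 2)) * δ := by ring
    _ ≤ 1 / 2 * δ := h1
    _ = δ / 2 := by ring

theorem T_zero (h : Num n α b e) (hG : Adm n b e G) {i : ℕ} (hi : i ≤ n) :
    ‖Sv n (Nl α G (fun _ => 0)) i‖ ≤ rr n α b e / 2 := by
  have hb := h.hb
  have hs := h.hs
  have he := h.he
  refine (Sv_bound (F := 20 * e / (b * Real.sin α)) (by positivity) h.hn.ne'
    (fun j hj => Nl_zero hb h.hb1 he hs hG hj) hi).trans (le_of_eq ?_)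
  unfold rr
  ring

theorem pic_bounds (h : Num n α b e) (hG : Adm n b e G) (k : ℕ) :
    (∀ i ≤ n, ‖pic n α G k i‖ ≤ rr n α b e * (1 - (1 / 2) ^ k)) ∧
      ∀ i ≤ n, ‖pic n α G (k + 1) i - pic n α G k i‖ ≤ rr n α b e / 2 * (1 / 2) ^ k := by
  have hr := rr_nonneg h
  induction k with
  | zero =>
    refine ⟨fun i hi => by simp [pic], fun i hi => ?_⟩
    have := T_zero h hG hi
    simpa [pic] using this
  | succ k ih =>
    obtain ⟨ih1, ih2⟩ := ih
    have h1 : ∀ i ≤ n, ‖pic n α G (k + 1) i‖ ≤ rr n α b e * (1 - (1 / 2) ^ (k + 1)) := by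
      intro i hi
      have h2 := norm_add_le (pic n α G (k + 1) i - pic n α G k i) (pic n α G k i)
      rw [sub_add_cancel] at h2
      refine h2.trans ((add_le_add (ih2 i hi) (ih1 i hi)).trans (le_of_eq ?_))
      rw [pow_succ]
      ring
    have hle : ∀ k : ℕ, rr n α b e * (1 - (1 / 2) ^ k) ≤ rho n α b := by
      intro k
      have h3 : (0 : ℝ) ≤ (1 / 2) ^ k := by positivity
      refine le_trans ?_ (rr_le h)
      nlinarith
    refine ⟨h1, fun i hi => ?_⟩
    have h4 := T_lip h hG (δ := rr n α b e / 2 * (1 / 2) ^ k) (by positivity)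
      (fun i hi => (h1 i hi).trans (hle _)) (fun i hi => (ih1 i hi).trans (hle _)) ih2 hi
    refine h4.trans (le_of_eq ?_)
    rw [pow_succ]
    ring

theorem pic_le (h : Num n α b e) (hG : Adm n b e G) (k : ℕ) {i : ℕ} (hi : i ≤ n) :
    ‖pic n α G k i‖ ≤ rr n α b e := by
  have hr := rr_nonneg h
  have h3 : (0 : ℝ) ≤ (1 / 2) ^ k := by positivity
  refine ((pic_bounds h hG k).1 i hi).trans ?_
  nlinarith

theorem pic_tendsto (h : Num n α b e) (hG : Adm n b e G) {i : ℕ} (hi : i ≤ n) :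
    Tendsto (fun k => pic n α G k i) atTop (𝓝 (cu n α G i)) := by
  have hC : CauchySeq fun k => pic n α G k i := by
    refine cauchySeq_of_le_geometric (1 / 2) (rr n α b e / 2) (by norm_num) fun k => ?_
    rw [dist_comm, dist_eq_norm]
    exact (pic_bounds h hG k).2 i hi
  unfold cu
  rw [if_pos hi]
  exact hC.tendsto_limUnder

theorem pic_dist (h : Num n α b e) (hG : Adm n b e G) (k : ℕ) {i : ℕ} (hi : i ≤ n) :
    ‖pic n α G k i - cu n α G i‖ ≤ rr n α b e * (1 / 2) ^ k := by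
  have h1 := dist_le_of_le_geometric_of_tendsto (1 / 2) (rr n α b e / 2) (by norm_num)
    (f := fun k => pic n α G k i) (fun k => by
      rw [dist_comm, dist_eq_norm]
      exact (pic_bounds h hG k).2 i hi) (pic_tendsto h hG hi) k
  rw [dist_eq_norm] at h1
  refine h1.trans (le_of_eq ?_)
  ring

theorem cu_le (h : Num n α b e) (hG : Adm n b e G) {i : ℕ} (hi : i ≤ n) :
    ‖cu n α G i‖ ≤ rr n α b e :=
  le_of_tendsto' (pic_tendsto h hG hi).norm fun k => pic_le h hG k hi

theorem cu_le' (h : Num n α b e) (hG : Adm n b e G) {i : ℕ} (hi : i ≤ n) :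
    ‖cu n α G i‖ ≤ rho n α b := (cu_le h hG hi).trans (rr_le h)

theorem cu_fix (h : Num n α b e) (hG : Adm n b e G) {i : ℕ} (hi : i ≤ n) :
    Sv n (Nl α G (cu n α G)) i = cu n α G i := by
  have hr := rr_nonneg h
  have h1 : Tendsto (fun k => pic n α G (k + 1) i) atTop (𝓝 (Sv n (Nl α G (cu n α G)) i)) := by
    rw [tendsto_iff_norm_sub_tendsto_zero]
    have h2 : ∀ k, ‖pic n α G (k + 1) i - Sv n (Nl α G (cu n α G)) i‖ ≤
        rr n α b e * (1 / 2) ^ k / 2 := fun k =>
      T_lip h hG (by positivity) (fun i hi => (pic_le h hG k hi).trans (rr_le h))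
        (fun i hi => cu_le' h hG hi) (fun i hi => pic_dist h hG k hi) hi
    refine squeeze_zero (fun k => norm_nonneg _) h2 ?_
    have h3 : Tendsto (fun k : ℕ => ((1 : ℝ) / 2) ^ k) atTop (𝓝 0) :=
      tendsto_pow_atTop_nhds_zero_of_lt_one (by norm_num) (by norm_num)
    have h4 := (h3.const_mul (rr n α b e)).div_const 2
    simpa using h4
  have h2 := (pic_tendsto h hG hi).comp (tendsto_add_atTop_nat 1)
  exact tendsto_nhds_unique h1 h2

theorem cu_zero (h : Num n α b e) (hG : Adm n b e G) : cu n α G 0 = 0 := by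
  rw [← cu_fix h hG (Nat.zero_le n), Sv_zero]

theorem cu_self (h : Num n α b e) (hG : Adm n b e G) : cu n α G n = 0 := by
  rw [← cu_fix h hG le_rfl, Sv_self h.hn.ne']

/-- the critical equations -/
theorem cu_crit (h : Num n α b e) (hG : Adm n b e G) {j : ℕ} (hj : j + 1 < n) :
    cr α G (cu n α G) j = 0 := by
  rw [cr_eq_zero h.hs.ne', ← cu_fix h hG (i := j + 1) (by omega),
    ← cu_fix h hG (i := j) (by omega), ← cu_fix h hG (i := j + 2) (by omega)]
  exact Sv_second n _ j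

/-- uniqueness -/
theorem cu_unique (h : Num n α b e) (hG : Adm n b e G) {u : ℕ → ℂ} (h0 : u 0 = 0)
    (hnn : u n = 0) (hu : ∀ i ≤ n, ‖u i‖ ≤ rho n α b) (hc : ∀ j, j + 1 < n → cr α G u j = 0) :
    ∀ i ≤ n, u i = cu n α G i := by
  have hfix : ∀ i ≤ n, u i = Sv n (Nl α G u) i :=
    Sv_unique h.hn.ne' h0 hnn fun j hj => (cr_eq_zero h.hs.ne' G u j).1 (hc j hj)
  have hρ := rho_pos h
  have key : ∀ k : ℕ, ∀ i ≤ n, ‖u i - cu n α G i‖ ≤ 2 * rho n α b * (1 / 2) ^ k := by
    intro k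
    induction k with
    | zero =>
      intro i hi
      rw [pow_zero, mul_one]
      refine (norm_sub_le _ _).trans ?_
      have := hu i hi
      have := cu_le' h hG hi
      linarith
    | succ k ih =>
      intro i hi
      rw [hfix i hi, ← cu_fix h hG hi]
      refine (T_lip h hG (δ := 2 * rho n α b * (1 / 2) ^ k) (by positivity) hu
        (fun i hi => cu_le' h hG hi) ih hi).trans (le_of_eq ?_)
      rw [pow_succ]
      ring
  intro i hi
  have h1 : Tendsto (fun k : ℕ => 2 * rho n α b * ((1 : ℝ) / 2) ^ k) atTop (𝓝 0) := by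
    have h3 : Tendsto (fun k : ℕ => ((1 : ℝ) / 2) ^ k) atTop (𝓝 0) :=
      tendsto_pow_atTop_nhds_zero_of_lt_one (by norm_num) (by norm_num)
    simpa using h3.const_mul (2 * rho n α b)
  have h2 : ‖u i - cu n α G i‖ ≤ 0 := ge_of_tendsto' h1 fun k => key k i hi
  have h3 := le_antisymm h2 (norm_nonneg _)
  exact sub_eq_zero.1 (norm_eq_zero.1 h3)

/-- functions which agree on the discs have the same critical polygon and value -/
theorem cr_congr {G G' : ℕ → ℂ → ℂ} (hGG : ∀ j < n, ∀ w ∈ ball (0 : ℂ) b, G j w = G' j w)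
    {u : ℕ → ℂ} (hu : ∀ i ≤ n, ‖u i‖ < b) {j : ℕ} (hj : j + 1 < n) :
    cr α G u j = cr α G' u j := by
  have hj0 : j < n := by omega
  have hb : ∀ {j : ℕ}, j < n → md u j ∈ ball (0 : ℂ) b := by
    intro j hj
    rw [mem_ball_zero_iff]
    unfold md
    rw [norm_div, Complex.norm_ofNat, div_lt_iff₀ (by norm_num)]
    have h1 := hu j hj.le
    have h2 := hu (j + 1) hj
    have := norm_add_le (u j) (u (j + 1))
    linarith
  have hd : ∀ {j : ℕ}, j < n → deriv (G j) (md u j) = deriv (G' j) (md u j) := by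
    intro j hj
    refine Filter.EventuallyEq.deriv_eq ?_
    filter_upwards [isOpen_ball.mem_nhds (hb hj)] with w hw
    exact hGG j hj w hw
  unfold cr
  rw [hd hj0, hd hj, hGG j hj0 _ (hb hj0), hGG (j + 1) hj _ (hb hj)]

theorem Adm.congr {G G' : ℕ → ℂ → ℂ} (hG : Adm n b e G)
    (hGG : ∀ j < n, ∀ w ∈ ball (0 : ℂ) b, G j w = G' j w) : Adm n b e G' := by
  constructor
  · intro j hj
    exact (hG.dif j hj).congr fun w hw => (hGG j hj w hw).symm
  · intro j hj w hw
    rw [← hGG j hj w hw]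
    exact hG.bd j hj w hw

theorem cu_congr (h : Num n α b e) (hG : Adm n b e G) {G' : ℕ → ℂ → ℂ}
    (hGG : ∀ j < n, ∀ w ∈ ball (0 : ℂ) b, G j w = G' j w) {i : ℕ} (hi : i ≤ n) :
    cu n α G i = cu n α G' i := by
  refine cu_unique h (hG.congr hGG) (cu_zero h hG) (cu_self h hG)
    (fun i hi => cu_le' h hG hi) (fun j hj => ?_) i hi
  rw [← cr_congr (b := b) hGG ?_ hj]
  · exact cu_crit h hG hj
  · intro i hi
    have h1 := (cu_le' h hG hi).trans (rho_le h)
    have := h.hb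
    linarith

theorem md_mem (h : Num n α b e) (hG : Adm n b e G) {j : ℕ} (hj : j < n) :
    ‖md (cu n α G) j‖ ≤ b / 4 :=
  (md_le hj fun i hi => cu_le' h hG hi).trans (rho_le h)

theorem cv_congr (h : Num n α b e) (hG : Adm n b e G) {G' : ℕ → ℂ → ℂ}
    (hGG : ∀ j < n, ∀ w ∈ ball (0 : ℂ) b, G j w = G' j w) : cv n α G = cv n α G' := by
  unfold cv Ac
  refine sum_congr rfl fun j hj => ?_
  have hj' := mem_range.1 hj
  have h1 : md (cu n α G) j = md (cu n α G') j := by
    unfold md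
    rw [cu_congr h hG hGG hj'.le, cu_congr h hG hGG (Nat.succ_le_of_lt hj')]
  have h2 : df (cu n α G) j = df (cu n α G') j := by
    unfold df
    rw [cu_congr h hG hGG hj'.le, cu_congr h hG hGG (Nat.succ_le_of_lt hj')]
  have h3 : md (cu n α G') j ∈ ball (0 : ℂ) b := by
    rw [← h1, mem_ball_zero_iff]
    have := md_mem h hG hj'
    have := h.hb
    linarith
  rw [h1, h2, hGG j hj' _ h3]

/-- bound of the critical value -/
theorem cv_le (h : Num n α b e) (hG : Adm n b e G) : ‖cv n α G‖ ≤ 4 * n := by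
  have he1 : e ≤ 1 := by
    refine h.sm.trans ?_
    have hn : (1 : ℝ) ≤ n := by exact_mod_cast h.hn
    have hs1 := Real.sin_le_one α
    have hs := h.hs
    have hb := h.hb
    have hb1 := h.hb1
    rw [div_le_one (by positivity)]
    have h1 : b ^ 2 * Real.sin α ^ 2 ≤ 1 := by
      have : b * Real.sin α ≤ 1 := by nlinarith
      have h0 : 0 ≤ b * Real.sin α := by positivity
      nlinarith
    have h2 : (1 : ℝ) ≤ (n : ℝ) ^ 4 := one_le_pow₀ hn
    linarith
  unfold cv Ac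
  refine (norm_sum_le _ _).trans ?_
  have h1 : ∀ j ∈ range n, ‖(1 + G j (md (cu n α G) j)) * Complex.sin (α + df (cu n α G) j)‖ ≤
      4 := by
    intro j hj
    have hj' := mem_range.1 hj
    have h2 := md_mem h hG hj'
    have h3 : ‖df (cu n α G) j‖ ≤ 1 / 4 := by
      refine (df_le hj' fun i hi => cu_le' h hG hi).trans ((rho_le h).trans ?_)
      have := h.hb1
      linarith
    have h4 : md (cu n α G) j ∈ ball (0 : ℂ) b := by
      rw [mem_ball_zero_iff]
      have := h.hb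
      linarith
    have h5 := hG.bd j hj' _ h4
    rw [norm_mul]
    have h6 : ‖1 + G j (md (cu n α G) j)‖ ≤ 2 := by
      refine (norm_add_le _ _).trans ?_
      rw [norm_one]
      linarith
    have h7 := norm_sin_le (α := α) h3
    calc _ ≤ (2 : ℝ) * 2 := mul_le_mul h6 h7 (norm_nonneg _) (by norm_num)
      _ = 4 := by norm_num
  refine (sum_le_sum h1).trans (le_of_eq ?_)
  rw [sum_const, card_range, nsmul_eq_mul]
  ring

end Vale.Agent.P097.H795.D1
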