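import Vale.Agent.P097.H795.D1.Picard

set_option linter.all false

/-!
# P097, disc case, D1a: holomorphic dependence on a parameter, envelope formula
-/

namespace Vale.Agent.P097.H795.D1

open Complex Metric Finset Filter Topology

/-- a holomorphic family of functions on the sides, parameter `t ∈ U` -/
structure Fam (n : ℕ) (b e : ℝ) (U : Set ℂ) (G : ℕ → ℂ → ℂ → ℂ) : Prop where
  op : IsOpen U
  joint : ∀ j < n, DifferentiableOn ℂ (fun p : ℂ × ℂ => G j p.1 p.2) (U ×ˢ ball 0 b)
  bd : ∀ t ∈ U, ∀ j < n, ∀ w ∈ ball (0 : ℂ) b, ‖G j t w‖ ≤ e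

variable {n : ℕ} {α b e : ℝ} {U : Set ℂ} {G : ℕ → ℂ → ℂ → ℂ}

theorem Fam.adm (F : Fam n b e U G) {t : ℂ} (ht : t ∈ U) : Adm n b e (fun j => G j t) where
  dif := fun j hj => by
    have h1 : DifferentiableOn ℂ (fun w : ℂ => ((t, w) : ℂ × ℂ)) (ball 0 b) := by fun_prop
    exact (F.joint j hj).comp h1 fun w hw => Set.mk_mem_prod ht hw
  bd := F.bd t ht

theorem Fam.comp (F : Fam n b e U G) {j : ℕ} (hj : j < n) {m : ℂ → ℂ}
    (hm : DifferentiableOn ℂ m U) (hmb : ∀ t ∈ U, m t ∈ ball (0 : ℂ) b) :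
    DifferentiableOn ℂ (fun t => G j t (m t)) U := by
  have h1 : DifferentiableOn ℂ (fun t : ℂ => ((t, m t) : ℂ × ℂ)) U :=
    differentiableOn_id.prodMk hm
  exact (F.joint j hj).comp h1 fun t ht => Set.mk_mem_prod ht (hmb t ht)

/-- Taylor estimate -/
theorem taylor_le {g : ℂ → ℂ} (hb : 0 < b) (hg : DifferentiableOn ℂ g (ball 0 b))
    (hbd : ∀ w ∈ ball (0 : ℂ) b, ‖g w‖ ≤ e) {w h : ℂ} (hw : ‖w‖ ≤ b / 8) (hh : ‖h‖ ≤ b / 8) :
    ‖g (w + h) - g w - deriv g w * h‖ ≤ 32 * e / b ^ 2 * ‖h‖ * ‖h‖ := by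
  have hin : ∀ z ∈ closedBall w ‖h‖, ‖z‖ ≤ b / 4 := by
    intro z hz
    rw [mem_closedBall, dist_eq_norm] at hz
    have : ‖z‖ ≤ ‖z - w‖ + ‖w‖ := by
      have := norm_add_le (z - w) w
      rwa [sub_add_cancel] at this
    linarith
  have h1 : ‖(fun z => g z - deriv g w * z) (w + h) - (fun z => g z - deriv g w * z) w‖ ≤
      32 * e / b ^ 2 * ‖h‖ * ‖w + h - w‖ := by
    refine (convex_closedBall w ‖h‖).norm_image_sub_le_of_norm_hasDerivWithin_le
      (f := fun z => g z - deriv g w * z) (f' := fun z => deriv g z - deriv g w)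
      (fun x hx => ?_) (fun x hx => ?_) (mem_closedBall_self (norm_nonneg _)) ?_
    · have hx' := hin x hx
      have hd : DifferentiableAt ℂ g x :=
        hg.differentiableAt (isOpen_ball.mem_nhds (by rw [mem_ball_zero_iff]; linarith))
      have h2 := hd.hasDerivAt.sub ((hasDerivAt_id x).const_mul (deriv g w))
      have h3 : HasDerivAt (fun z => g z - deriv g w * z) (deriv g x - deriv g w * 1) x := h2
      rw [mul_one] at h3
      exact h3.hasDerivWithinAt
    · have hx' := hin x hx
      rw [mem_closedBall, dist_eq_norm] at hx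
      have h0 : 0 ≤ e := (norm_nonneg _).trans (hbd 0 (by rw [mem_ball_zero_iff]; simpa using hb))
      exact (der_lip hb hg hbd hx' (by linarith)).trans
        (mul_le_mul_of_nonneg_left hx (by positivity))
    · rw [mem_closedBall, dist_eq_norm, add_sub_cancel_left]
  rw [add_sub_cancel_left] at h1
  refine le_trans (le_of_eq ?_) h1
  congr 1
  simp only
  ring

/-- the derivative along the family depends holomorphically on the parameter -/
theorem Fam.compDeriv (F : Fam n b e U G) (hb : 0 < b) {j : ℕ} (hj : j < n) {m : ℂ → ℂ}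
    (hm : DifferentiableOn ℂ m U) (hmb : ∀ t ∈ U, ‖m t‖ ≤ b / 8) :
    DifferentiableOn ℂ (fun t => deriv (G j t) (m t)) U := by
  rcases U.eq_empty_or_nonempty with hU | ⟨t₀, ht₀⟩
  · rw [hU]; exact differentiableOn_empty
  have he : 0 ≤ e := (norm_nonneg _).trans
    (F.bd t₀ ht₀ j hj 0 (by rw [mem_ball_zero_iff]; simpa using hb))
  set hk : ℕ → ℝ := fun k => b / 8 * (1 / ((k : ℝ) + 1)) with hkdef
  have hk0 : ∀ k, 0 < hk k := fun k => by simp only [hkdef]; positivity
  have hk1 : ∀ k, hk k ≤ b / 8 := by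
    intro k
    simp only [hkdef]
    have : 1 / ((k : ℝ) + 1) ≤ 1 := by
      rw [div_le_one (by positivity)]
      have : (0 : ℝ) ≤ k := by positivity
      linarith
    have h8 : 0 < b / 8 := by positivity
    nlinarith
  have hlim : Tendsto hk atTop (𝓝 0) := by
    have := (tendsto_one_div_add_atTop_nhds_zero_nat (𝕜 := ℝ)).const_mul (b / 8)
    rwa [mul_zero] at this
  have hnk : ∀ k, ‖((hk k : ℝ) : ℂ)‖ = hk k := fun k => by
    rw [Complex.norm_real, Real.norm_of_nonneg (hk0 k).le]
  set Fk : ℕ → ℂ → ℂ := fun k t => (G j t (m t + hk k) - G j t (m t)) / hk k with hFk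
  have hdiff : ∀ k, DifferentiableOn ℂ (Fk k) U := by
    intro k
    refine DifferentiableOn.div_const ?_ _
    refine (F.comp hj (hm.add_const _) fun t ht => ?_).sub (F.comp hj hm fun t ht => ?_)
    · rw [mem_ball_zero_iff]
      refine (norm_add_le _ _).trans_lt ?_
      rw [hnk]
      have := hmb t ht
      have := hk1 k
      linarith
    · rw [mem_ball_zero_iff]
      have := hmb t ht
      linarith
  have hunif : TendstoUniformlyOn Fk (fun t => deriv (G j t) (m t)) atTop U := by
    rw [Metric.tendstoUniformlyOn_iff]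
    intro ε hε
    have h1 : Tendsto (fun k => 32 * e / b ^ 2 * hk k) atTop (𝓝 0) := by
      have := hlim.const_mul (32 * e / b ^ 2)
      rwa [mul_zero] at this
    filter_upwards [h1.eventually_lt_const hε] with k hkε t ht
    have hA := F.adm ht
    have h2 := taylor_le hb (hA.dif j hj) (hA.bd j hj) (hmb t ht)
      (h := ((hk k : ℝ) : ℂ)) (by rw [hnk]; exact hk1 k)
    rw [hnk] at h2
    have hne : ((hk k : ℝ) : ℂ) ≠ 0 := by exact_mod_cast (hk0 k).ne'
    rw [dist_comm, dist_eq_norm]
    have e1 : Fk k t - deriv (G j t) (m t) =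
        (G j t (m t + hk k) - G j t (m t) - deriv (G j t) (m t) * hk k) / hk k := by
      simp only [hFk]
      field_simp
    rw [e1, norm_div, hnk, div_lt_iff₀ (hk0 k)]
    calc _ ≤ 32 * e / b ^ 2 * hk k * hk k := h2
      _ < ε * hk k := mul_lt_mul_of_pos_right hkε (hk0 k)
  exact hunif.tendstoLocallyUniformlyOn.differentiableOn
    (Filter.Eventually.of_forall hdiff) F.op

theorem rho_le8 (h : Num n α b e) : rho n α b ≤ b / 8 := by
  have hb := h.hb
  have hs := h.hs
  have hn : (1 : ℝ) ≤ n := by exact_mod_cast h.hn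
  have hs1 := Real.sin_le_one α
  unfold rho
  rw [div_le_div_iff₀ (by positivity) (by norm_num)]
  have h1 : b * Real.sin α ≤ b := by nlinarith
  have h2 : (1 : ℝ) ≤ (n : ℝ) ^ 2 := by nlinarith
  nlinarith

/-- differentiability of the solution of the Dirichlet problem -/
theorem Sv_dif {f : ℂ → ℕ → ℂ} (hf : ∀ j, j + 1 < n → DifferentiableOn ℂ (fun t => f t j) U)
    {i : ℕ} (hi : i ≤ n) : DifferentiableOn ℂ (fun t => Sv n (f t) i) U := by
  set f' : ℂ → ℕ → ℂ := fun t j => if j + 1 < n then f t j else 0 with hf'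
  have hd : ∀ j, DifferentiableOn ℂ (fun t => f' t j) U := by
    intro j
    by_cases h : j + 1 < n
    · simp only [hf', if_pos h]
      exact hf j h
    · simp only [hf', if_neg h]
      exact differentiableOn_const 0
  have hw : ∀ i ≤ n, DifferentiableOn ℂ (fun t => wv (f t) i) U := by
    intro i hi
    have e1 : (fun t => wv (f t) i) = fun t => wv (f' t) i := by
      funext t
      exact wv_congr (fun j hj => by simp only [hf', if_pos hj]) hi
    rw [e1]
    unfold wv
    exact DifferentiableOn.fun_sum fun j _ => (hd j).const_mul _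
  unfold Sv
  exact ((hw n le_rfl).const_mul _).sub (hw i hi)

theorem md_dif {u : ℂ → ℕ → ℂ} (hu : ∀ i ≤ n, DifferentiableOn ℂ (fun t => u t i) U) {j : ℕ}
    (hj : j < n) : DifferentiableOn ℂ (fun t => md (u t) j) U := by
  unfold md
  exact ((hu j hj.le).add (hu (j + 1) hj)).div_const _

theorem df_dif {u : ℂ → ℕ → ℂ} (hu : ∀ i ≤ n, DifferentiableOn ℂ (fun t => u t i) U) {j : ℕ}
    (hj : j < n) : DifferentiableOn ℂ (fun t => df (u t) j) U := by
  unfold df
  exact ((hu (j + 1) hj).sub (hu j hj.le)).div_const _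

theorem Nl_dif (h : Num n α b e) (F : Fam n b e U G) {u : ℂ → ℕ → ℂ}
    (hu : ∀ i ≤ n, DifferentiableOn ℂ (fun t => u t i) U)
    (hub : ∀ t ∈ U, ∀ i ≤ n, ‖u t i‖ ≤ rho n α b) {j : ℕ} (hj : j + 1 < n) :
    DifferentiableOn ℂ (fun t => Nl α (fun j => G j t) (u t) j) U := by
  have hb := h.hb
  have key : ∀ j < n, DifferentiableOn ℂ (fun t => Complex.sin (α + df (u t) j)) U ∧
      DifferentiableOn ℂ (fun t => Complex.cos (α + df (u t) j)) U ∧
      DifferentiableOn ℂ (fun t => deriv (G j t) (md (u t) j)) U ∧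
      DifferentiableOn ℂ (fun t => G j t (md (u t) j)) U ∧
      DifferentiableOn ℂ (fun t => Rm α (df (u t) j)) U := by
    intro j hj
    have h1 := df_dif hu hj
    have h2 := md_dif hu hj
    have h3 : ∀ t ∈ U, ‖md (u t) j‖ ≤ b / 8 := fun t ht =>
      (md_le hj (hub t ht)).trans (rho_le8 h)
    have hc := (h1.const_add (α : ℂ)).ccos
    refine ⟨(h1.const_add (α : ℂ)).csin, hc, F.compDeriv hb hj h2 h3,
      F.comp hj h2 fun t ht => ?_, ?_⟩
    · rw [mem_ball_zero_iff]
      have := h3 t ht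
      linarith
    · unfold Rm
      exact (hc.sub_const _).add (h1.const_mul _)
  obtain ⟨s1, c1, d1, g1, r1⟩ := key j (by omega)
  obtain ⟨s2, c2, d2, g2, r2⟩ := key (j + 1) hj
  unfold Nl
  exact (((r1.sub r2).add ((d1.mul s1).add (g1.mul c1))).add
    ((d2.mul s2).sub (g2.mul c2))).const_mul _

theorem pic_dif (h : Num n α b e) (F : Fam n b e U G) (k : ℕ) :
    ∀ i ≤ n, DifferentiableOn ℂ (fun t => pic n α (fun j => G j t) k i) U := by
  induction k with
  | zero =>
    intro i hi
    simp only [pic]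
    exact differentiableOn_const 0
  | succ k ih =>
    intro i hi
    simp only [pic]
    refine Sv_dif (f := fun t => Nl α (fun j => G j t) (pic n α (fun j => G j t) k))
      (fun j hj => ?_) hi
    exact Nl_dif h F (u := fun t => pic n α (fun j => G j t) k) ih
      (fun t ht i hi => (pic_le h (F.adm ht) k hi).trans (rr_le h)) hj

/-- the critical polygon depends holomorphically on the parameter -/
theorem cu_dif (h : Num n α b e) (F : Fam n b e U G) {i : ℕ} (hi : i ≤ n) :
    DifferentiableOn ℂ (fun t => cu n α (fun j => G j t) i) U := by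
  have hr := rr_nonneg h
  have hunif : TendstoUniformlyOn (fun k t => pic n α (fun j => G j t) k i)
      (fun t => cu n α (fun j => G j t) i) atTop U := by
    rw [Metric.tendstoUniformlyOn_iff]
    intro ε hε
    have h3 : Tendsto (fun k : ℕ => ((1 : ℝ) / 2) ^ k) atTop (𝓝 0) :=
      tendsto_pow_atTop_nhds_zero_of_lt_one (by norm_num) (by norm_num)
    have h4 : Tendsto (fun k : ℕ => rr n α b e * ((1 : ℝ) / 2) ^ k) atTop (𝓝 0) := by
      have := h3.const_mul (rr n α b e)
      rwa [mul_zero] at this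
    filter_upwards [h4.eventually_lt_const hε] with k hk t ht
    rw [dist_comm, dist_eq_norm]
    exact (pic_dist h (F.adm ht) k hi).trans_lt hk
  exact hunif.tendstoLocallyUniformlyOn.differentiableOn
    (Filter.Eventually.of_forall fun k => pic_dif h F k i hi) F.op

/-- chain rule for one side -/
theorem Fam.hasDerivAt_comp (F : Fam n b e U G) {j : ℕ} (hj : j < n) {t : ℂ} (ht : t ∈ U)
    {m : ℂ → ℂ} {m' : ℂ} (hm : HasDerivAt m m' t) (hmb : m t ∈ ball (0 : ℂ) b) :
    HasDerivAt (fun s => G j s (m s))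
      (deriv (fun s => G j s (m t)) t + deriv (G j t) (m t) * m') t := by
  have hU : U ×ˢ ball (0 : ℂ) b ∈ 𝓝 ((t, m t) : ℂ × ℂ) :=
    (F.op.prod isOpen_ball).mem_nhds (Set.mk_mem_prod ht hmb)
  have hd : DifferentiableAt ℂ (fun p : ℂ × ℂ => G j p.1 p.2) (t, m t) :=
    (F.joint j hj).differentiableAt hU
  set L := fderiv ℂ (fun p : ℂ × ℂ => G j p.1 p.2) (t, m t) with hL
  have hL' : HasFDerivAt (fun p : ℂ × ℂ => G j p.1 p.2) L (t, m t) := hd.hasFDerivAt
  have h1 : HasDerivAt (fun s : ℂ => ((s, m s) : ℂ × ℂ)) ((1, m') : ℂ × ℂ) t :=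
    (hasDerivAt_id t).prodMk hm
  have h2 : HasDerivAt (fun s => G j s (m s)) (L (1, m')) t :=
    HasFDerivAt.comp_hasDerivAt t (f := fun s : ℂ => ((s, m s) : ℂ × ℂ)) hL' h1
  have h3 : HasDerivAt (fun s => G j s (m t)) (L (1, 0)) t :=
    HasFDerivAt.comp_hasDerivAt t (f := fun s : ℂ => ((s, m t) : ℂ × ℂ)) hL'
      ((hasDerivAt_id t).prodMk (hasDerivAt_const t (m t)))
  have h4 : HasDerivAt (G j t) (L (0, 1)) (m t) :=
    HasFDerivAt.comp_hasDerivAt (m t) (f := fun w : ℂ => ((t, w) : ℂ × ℂ)) hL'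
      ((hasDerivAt_const (m t) t).prodMk (hasDerivAt_id (m t)))
  rw [h3.deriv, h4.deriv]
  have e1 : L (1, m') = L (1, 0) + L (0, 1) * m' := by
    have : ((1, m') : ℂ × ℂ) = (1, 0) + m' • ((0, 1) : ℂ × ℂ) := by
      ext <;> simp
    rw [this, map_add, map_smul, smul_eq_mul, mul_comm]
  rw [← e1]
  exact h2

theorem sum_shift (n : ℕ) (A B v : ℕ → ℂ) (h0 : v 0 = 0) (hn : v n = 0)
    (h : ∀ j, j + 1 < n → A j + B (j + 1) = 0) :
    ∑ j ∈ range n, (A j * v (j + 1) + B j * v j) = 0 := by
  cases n with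
  | zero => simp
  | succ m =>
    rw [sum_add_distrib, sum_range_succ, sum_range_succ' (fun j => B j * v j), hn, h0, mul_zero,
      mul_zero, add_zero, add_zero, ← sum_add_distrib]
    refine sum_eq_zero fun j hj => ?_
    have := h j (by have := mem_range.1 hj; omega)
    rw [← add_mul, this, zero_mul]

/-- **envelope formula** -/
theorem cv_hasDerivAt (h : Num n α b e) (F : Fam n b e U G) {t : ℂ} (ht : t ∈ U) :
    HasDerivAt (fun s => cv n α (fun j => G j s))
      (∑ j ∈ range n, deriv (fun s => G j s (md (cu n α (fun j => G j t)) j)) t *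
        Complex.sin (α + df (cu n α (fun j => G j t)) j)) t := by
  have hb := h.hb
  have hUn : U ∈ 𝓝 t := F.op.mem_nhds ht
  set u : ℂ → ℕ → ℂ := fun s => cu n α (fun j => G j s) with hu
  set v : ℕ → ℂ := fun i => deriv (fun s => u s i) t with hv
  have hud : ∀ i ≤ n, HasDerivAt (fun s => u s i) (v i) t := fun i hi =>
    ((cu_dif h F hi).differentiableAt hUn).hasDerivAt
  have hv0 : v 0 = 0 := by
    have : (fun s => u s 0) =ᶠ[𝓝 t] fun _ => 0 := by
      filter_upwards [hUn] with s hs
      exact cu_zero h (F.adm hs)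
    simp only [hv]
    rw [this.deriv_eq]
    simp
  have hvn : v n = 0 := by
    have : (fun s => u s n) =ᶠ[𝓝 t] fun _ => 0 := by
      filter_upwards [hUn] with s hs
      exact cu_self h (F.adm hs)
    simp only [hv]
    rw [this.deriv_eq]
    simp
  have hmd : ∀ j < n, HasDerivAt (fun s => md (u s) j) ((v j + v (j + 1)) / 2) t := fun j hj =>
    ((hud j hj.le).add (hud (j + 1) hj)).div_const _
  have hdf : ∀ j < n, HasDerivAt (fun s => df (u s) j) ((v (j + 1) - v j) / 2) t := fun j hj =>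
    ((hud (j + 1) hj).sub (hud j hj.le)).div_const _
  have hterm : ∀ j ∈ range n, HasDerivAt
      (fun s => (1 + G j s (md (u s) j)) * Complex.sin (α + df (u s) j))
      ((deriv (fun s => G j s (md (u t) j)) t +
        deriv (G j t) (md (u t) j) * ((v j + v (j + 1)) / 2)) * Complex.sin (α + df (u t) j) +
        (1 + G j t (md (u t) j)) *
          (Complex.cos (α + df (u t) j) * ((v (j + 1) - v j) / 2))) t := by
    intro j hj
    have hj' := mem_range.1 hj
    have hmem : md (u t) j ∈ ball (0 : ℂ) b := by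
      rw [mem_ball_zero_iff]
      have := md_mem h (F.adm ht) hj'
      simp only [hu]
      linarith
    have h1 := (F.hasDerivAt_comp hj' ht (hmd j hj') hmem).const_add (1 : ℂ)
    have h2 := ((hdf j hj').const_add (α : ℂ)).csin
    exact h1.mul h2
  have hsum := HasDerivAt.fun_sum hterm
  have e1 : (fun s => cv n α (fun j => G j s)) = fun s =>
      ∑ j ∈ range n, (1 + G j s (md (u s) j)) * Complex.sin (α + df (u s) j) := rfl
  rw [e1]
  refine hsum.congr_deriv (Eq.symm ?_)
  rw [← sub_eq_zero, ← sum_sub_distrib]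
  have e2 : ∀ j ∈ range n, deriv (fun s => G j s (md (u t) j)) t *
      Complex.sin (α + df (u t) j) -
      ((deriv (fun s => G j s (md (u t) j)) t +
        deriv (G j t) (md (u t) j) * ((v j + v (j + 1)) / 2)) * Complex.sin (α + df (u t) j) +
        (1 + G j t (md (u t) j)) *
          (Complex.cos (α + df (u t) j) * ((v (j + 1) - v j) / 2))) =
      (-(deriv (G j t) (md (u t) j) * Complex.sin (α + df (u t) j) +
        (1 + G j t (md (u t) j)) * Complex.cos (α + df (u t) j)) / 2) * v (j + 1) +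
      (-(deriv (G j t) (md (u t) j) * Complex.sin (α + df (u t) j) -
        (1 + G j t (md (u t) j)) * Complex.cos (α + df (u t) j)) / 2) * v j := by
    intro j _
    ring
  rw [sum_congr rfl e2]
  refine sum_shift n (fun j => -(deriv (G j t) (md (u t) j) * Complex.sin (α + df (u t) j) +
        (1 + G j t (md (u t) j)) * Complex.cos (α + df (u t) j)) / 2)
    (fun j => -(deriv (G j t) (md (u t) j) * Complex.sin (α + df (u t) j) -
        (1 + G j t (md (u t) j)) * Complex.cos (α + df (u t) j)) / 2) v hv0 hvn fun j hj => ?_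
  have hcr := cu_crit h (F.adm ht) hj
  unfold cr at hcr
  linear_combination (-1 / 2 : ℂ) * hcr

theorem cv_dif (h : Num n α b e) (F : Fam n b e U G) :
    DifferentiableOn ℂ (fun t => cv n α (fun j => G j t)) U := fun t ht =>
  (cv_hasDerivAt h F ht).differentiableAt.differentiableWithinAt

/-- the critical polygon and value for the regular polygon -/
theorem cu_of_zero (h : Num n α b e) (hG : Adm n b e (fun _ _ => 0)) {i : ℕ} (hi : i ≤ n) :
    cu n α (fun _ _ => 0) i = 0 := by
  refine (cu_unique h hG (u := fun _ => 0) rfl rfl (fun i _ => ?_) (fun j hj => ?_) i hi).symm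
  · simpa using (rho_pos h).le
  · rw [cr_eq_zero h.hs.ne']
    unfold Nl
    simp [md, df]

/-- the derivative at `0` along a ray -/
theorem cv_hasDerivAt_zero (h : Num n α b e) {U : Set ℂ} {G : ℕ → ℂ → ℂ → ℂ}
    (F : Fam n b e U G) (h0 : (0 : ℂ) ∈ U) (hG0 : ∀ j < n, ∀ w ∈ ball (0 : ℂ) b, G j 0 w = 0) :
    HasDerivAt (fun s => cv n α (fun j => G j s))
      (Real.sin α * ∑ j ∈ range n, deriv (fun s => G j s 0) 0) 0 := by
  have h1 := cv_hasDerivAt h F h0
  have hz : ∀ i ≤ n, cu n α (fun j => G j 0) i = 0 := by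
    intro i hi
    rw [cu_congr h (F.adm h0) (G' := fun _ _ => 0) (fun j hj w hw => hG0 j hj w hw) hi]
    exact cu_of_zero h ((F.adm h0).congr fun j hj w hw => hG0 j hj w hw) hi
  refine h1.congr_deriv (Eq.symm ?_)
  rw [mul_sum]
  refine sum_congr rfl fun j hj => ?_
  have hj' := mem_range.1 hj
  have e1 : md (cu n α fun j => G j 0) j = 0 := by
    unfold md
    rw [hz j hj'.le, hz (j + 1) hj']
    simp
  have e2 : df (cu n α fun j => G j 0) j = 0 := by
    unfold df
    rw [hz j hj'.le, hz (j + 1) hj']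
    simp
  rw [e1, e2, add_zero, ← Complex.ofReal_sin, mul_comm]

end Vale.Agent.P097.H795.D1
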