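import Mathlib

set_option linter.all false

/-!
# P097, disc case, D1a: critical polygons near the regular polygon (complex, finite dimensional)

Vertices `u 0 = 0, u 1, ..., u (n - 1), u n = 0` (displacements from the regular polygon), sides
`j < n` with functions `G j` holomorphic on the disc of radius `b`.
-/

namespace Vale.Agent.P097.H795.D1

open Complex Metric Finset Filter Topology

/-- midpoint of side `j` -/
noncomputable def md (u : ℕ → ℂ) (j : ℕ) : ℂ := (u j + u (j + 1)) / 2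

/-- half difference along side `j` -/
noncomputable def df (u : ℕ → ℂ) (j : ℕ) : ℂ := (u (j + 1) - u j) / 2

/-- the action -/
noncomputable def Ac (n : ℕ) (α : ℝ) (G : ℕ → ℂ → ℂ) (u : ℕ → ℂ) : ℂ :=
  ∑ j ∈ range n, (1 + G j (md u j)) * Complex.sin (α + df u j)

/-- twice the partial derivative of the action in the vertex `j + 1` -/
noncomputable def cr (α : ℝ) (G : ℕ → ℂ → ℂ) (u : ℕ → ℂ) (j : ℕ) : ℂ :=
  (deriv (G j) (md u j) * Complex.sin (α + df u j) +
    (1 + G j (md u j)) * Complex.cos (α + df u j)) +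
  (deriv (G (j + 1)) (md u (j + 1)) * Complex.sin (α + df u (j + 1)) -
    (1 + G (j + 1) (md u (j + 1))) * Complex.cos (α + df u (j + 1)))

/-- the remainder of the cosine -/
noncomputable def Rm (α : ℝ) (d : ℂ) : ℂ :=
  Complex.cos (α + d) - Real.cos α + Real.sin α * d

/-- the nonlinear part, at the vertex `j + 1` -/
noncomputable def Nl (α : ℝ) (G : ℕ → ℂ → ℂ) (u : ℕ → ℂ) (j : ℕ) : ℂ :=
  (2 / Real.sin α) * ((Rm α (df u j) - Rm α (df u (j + 1))) +
    (deriv (G j) (md u j) * Complex.sin (α + df u j) + G j (md u j) * Complex.cos (α + df u j)) +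
    (deriv (G (j + 1)) (md u (j + 1)) * Complex.sin (α + df u (j + 1)) -
      G (j + 1) (md u (j + 1)) * Complex.cos (α + df u (j + 1))))

theorem cr_eq {α : ℝ} (hs : Real.sin α ≠ 0) (G : ℕ → ℂ → ℂ) (u : ℕ → ℂ) (j : ℕ) :
    cr α G u j = (Real.sin α / 2 : ℂ) * (Nl α G u j - (2 * u (j + 1) - u j - u (j + 2))) := by
  have hs' : (Real.sin α : ℂ) ≠ 0 := by exact_mod_cast hs
  unfold Nl cr Rm
  have e : (Real.sin α : ℂ) / 2 * (2 / Real.sin α * ((Complex.cos (α + df u j) - Real.cos α +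
      Real.sin α * df u j - (Complex.cos (α + df u (j + 1)) - Real.cos α +
      Real.sin α * df u (j + 1))) + (deriv (G j) (md u j) * Complex.sin (α + df u j) +
      G j (md u j) * Complex.cos (α + df u j)) + (deriv (G (j + 1)) (md u (j + 1)) *
      Complex.sin (α + df u (j + 1)) - G (j + 1) (md u (j + 1)) *
      Complex.cos (α + df u (j + 1))))) =
      ((Complex.cos (α + df u j) - Real.cos α +
      Real.sin α * df u j - (Complex.cos (α + df u (j + 1)) - Real.cos α +
      Real.sin α * df u (j + 1))) + (deriv (G j) (md u j) * Complex.sin (α + df u j) +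
      G j (md u j) * Complex.cos (α + df u j)) + (deriv (G (j + 1)) (md u (j + 1)) *
      Complex.sin (α + df u (j + 1)) - G (j + 1) (md u (j + 1)) *
      Complex.cos (α + df u (j + 1)))) := by
    rw [← mul_assoc, div_mul_div_comm, mul_comm (2 : ℂ), div_self (mul_ne_zero hs' two_ne_zero),
      one_mul]
  rw [mul_sub, e]
  have e2 : (Real.sin α : ℂ) / 2 * (2 * u (j + 1) - u j - u (j + 2)) =
      Real.sin α * df u j - Real.sin α * df u (j + 1) := by
    unfold df
    ring
  rw [e2]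
  ring

theorem cr_eq_zero {α : ℝ} (hs : Real.sin α ≠ 0) (G : ℕ → ℂ → ℂ) (u : ℕ → ℂ) (j : ℕ) :
    cr α G u j = 0 ↔ 2 * u (j + 1) - u j - u (j + 2) = Nl α G u j := by
  have hs' : (Real.sin α : ℂ) ≠ 0 := by exact_mod_cast hs
  rw [cr_eq hs, mul_eq_zero]
  constructor
  · rintro (h | h)
    · exact absurd h (div_ne_zero hs' two_ne_zero)
    · exact (sub_eq_zero.1 h).symm
  · intro h
    right
    rw [h, sub_self]

/-- partial solution of the second difference equation -/
noncomputable def wv (f : ℕ → ℂ) (i : ℕ) : ℂ := ∑ j ∈ range i, ((i : ℂ) - ((j : ℂ) + 1)) * f j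

theorem wv_succ (f : ℕ → ℂ) (i : ℕ) : wv f (i + 1) = wv f i + ∑ j ∈ range i, f j := by
  unfold wv
  rw [sum_range_succ, ← sum_add_distrib]
  push_cast
  rw [sub_self, zero_mul, add_zero]
  exact sum_congr rfl fun j _ => by ring

theorem wv_zero (f : ℕ → ℂ) : wv f 0 = 0 := by simp [wv]

theorem wv_second (f : ℕ → ℂ) (i : ℕ) : wv f (i + 2) - 2 * wv f (i + 1) + wv f i = f i := by
  rw [wv_succ f (i + 1), wv_succ f i, sum_range_succ]
  ring

/-- solution operator of the Dirichlet problem -/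
noncomputable def Sv (n : ℕ) (f : ℕ → ℂ) (i : ℕ) : ℂ := (i : ℂ) / n * wv f n - wv f i

theorem Sv_zero (n : ℕ) (f : ℕ → ℂ) : Sv n f 0 = 0 := by simp [Sv, wv_zero]

theorem Sv_self {n : ℕ} (hn : n ≠ 0) (f : ℕ → ℂ) : Sv n f n = 0 := by
  have : (n : ℂ) ≠ 0 := by exact_mod_cast hn
  simp [Sv, this]

theorem Sv_second (n : ℕ) (f : ℕ → ℂ) (i : ℕ) :
    2 * Sv n f (i + 1) - Sv n f i - Sv n f (i + 2) = f i := by
  rw [← wv_second f i]
  unfold Sv
  push_cast
  ring

theorem wv_bound {f : ℕ → ℂ} {F : ℝ} (hF : 0 ≤ F) {n : ℕ}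
    (h : ∀ j, j + 1 < n → ‖f j‖ ≤ F) {i : ℕ} (hi : i ≤ n) : ‖wv f i‖ ≤ (n : ℝ) ^ 2 * F := by
  unfold wv
  have h1 : ∀ j ∈ range i, ‖((i : ℂ) - ((j : ℂ) + 1)) * f j‖ ≤ (n : ℝ) * F := by
    intro j hj
    have hj' : j < i := mem_range.1 hj
    rcases Nat.lt_or_ge (j + 1) i with h2 | h2
    · rw [norm_mul]
      have e : ((i : ℂ) - ((j : ℂ) + 1)) = ((i - (j + 1) : ℕ) : ℂ) := by
        rw [Nat.cast_sub h2.le]
        push_cast
        ring
      rw [e, Complex.norm_natCast]
      refine mul_le_mul ?_ (h j (lt_of_lt_of_le h2 hi)) (norm_nonneg _) (by positivity)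
      exact_mod_cast (Nat.sub_le _ _).trans hi
    · have e : i = j + 1 := by omega
      have : ((i : ℂ) - ((j : ℂ) + 1)) = 0 := by
        rw [e]; push_cast; ring
      rw [this, zero_mul, norm_zero]
      positivity
  refine (norm_sum_le _ _).trans ((sum_le_sum h1).trans ?_)
  rw [sum_const, card_range, nsmul_eq_mul]
  have : (i : ℝ) ≤ n := by exact_mod_cast hi
  nlinarith [mul_nonneg (Nat.cast_nonneg (α := ℝ) n) hF]

theorem Sv_bound {f : ℕ → ℂ} {F : ℝ} (hF : 0 ≤ F) {n : ℕ} (hn : n ≠ 0)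
    (h : ∀ j, j + 1 < n → ‖f j‖ ≤ F) {i : ℕ} (hi : i ≤ n) : ‖Sv n f i‖ ≤ 2 * (n : ℝ) ^ 2 * F := by
  unfold Sv
  have h0 : (0 : ℝ) < n := by exact_mod_cast Nat.pos_of_ne_zero hn
  have h1 := wv_bound hF h le_rfl
  have h2 := wv_bound hF h hi
  have h3 : ‖(i : ℂ) / n‖ ≤ 1 := by
    rw [norm_div, Complex.norm_natCast, Complex.norm_natCast, div_le_one h0]
    exact_mod_cast hi
  calc ‖(i : ℂ) / n * wv f n - wv f i‖ ≤ ‖(i : ℂ) / n‖ * ‖wv f n‖ + ‖wv f i‖ := by
        refine (norm_sub_le _ _).trans ?_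
        rw [norm_mul]
    _ ≤ 1 * ((n : ℝ) ^ 2 * F) + (n : ℝ) ^ 2 * F := by
        refine add_le_add (mul_le_mul h3 h1 (norm_nonneg _) zero_le_one) h2
    _ = _ := by ring

theorem wv_sub (f g : ℕ → ℂ) (i : ℕ) : wv (fun j => f j - g j) i = wv f i - wv g i := by
  unfold wv
  rw [← sum_sub_distrib]
  exact sum_congr rfl fun j _ => by ring

theorem Sv_sub (n : ℕ) (f g : ℕ → ℂ) (i : ℕ) :
    Sv n (fun j => f j - g j) i = Sv n f i - Sv n g i := by
  unfold Sv
  rw [wv_sub, wv_sub]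
  ring

theorem wv_congr {f g : ℕ → ℂ} {n i : ℕ} (h : ∀ j, j + 1 < n → f j = g j) (hi : i ≤ n) :
    wv f i = wv g i := by
  unfold wv
  refine sum_congr rfl fun j hj => ?_
  have hj' : j < i := mem_range.1 hj
  rcases Nat.lt_or_ge (j + 1) i with h2 | h2
  · rw [h j (lt_of_lt_of_le h2 hi)]
  · have e : i = j + 1 := by omega
    have : ((i : ℂ) - ((j : ℂ) + 1)) = 0 := by
      rw [e]; push_cast; ring
    rw [this, zero_mul, zero_mul]

/-- uniqueness for the Dirichlet problem -/
theorem Sv_unique {n : ℕ} (hn : n ≠ 0) {f u : ℕ → ℂ} (h0 : u 0 = 0) (hnn : u n = 0)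
    (h : ∀ j, j + 1 < n → 2 * u (j + 1) - u j - u (j + 2) = f j) :
    ∀ i ≤ n, u i = Sv n f i := by
  have h1 : ∀ i, i ≤ n → u i = i * u 1 - wv f i := by
    intro i
    induction i using Nat.strong_induction_on with
    | _ i ih =>
      intro hi
      match i, ih, hi with
      | 0, _, _ => simp [h0, wv_zero]
      | 1, _, _ =>
        have : wv f 1 = 0 := by simp [wv]
        rw [this]; push_cast; ring
      | i + 2, ih, hi =>
        have e1 := ih (i + 1) (by omega) (by omega)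
        have e2 := ih i (by omega) (by omega)
        have e3 := h i (by omega)
        have e4 := wv_second f i
        have : u (i + 2) = 2 * u (i + 1) - u i - f i := by rw [← e3]; ring
        rw [this, e1, e2, ← e4]
        push_cast
        ring
  intro i hi
  have hn' : (n : ℂ) ≠ 0 := by exact_mod_cast hn
  have e1 := h1 n le_rfl
  rw [hnn] at e1
  have e2 : u 1 = wv f n / n := by
    rw [eq_div_iff hn']
    linear_combination -e1
  rw [h1 i hi, e2]
  unfold Sv
  ring

end Vale.Agent.P097.H795.D1
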