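import Vale.Agent.P097.H795.D1.Core

set_option linter.all false

/-!
# P097, disc case, D1a: estimates for the nonlinear part
-/

namespace Vale.Agent.P097.H795.D1

open Complex Metric Finset Filter Topology

theorem exp_quarter : Real.exp (1 / 4) ≤ 2 := by
  have h := Real.exp_bound_div_one_sub_of_interval (x := 1 / 4) (by norm_num) (by norm_num)
  refine h.trans (by norm_num)

theorem norm_exp_le {α : ℝ} {d : ℂ} (hd : ‖d‖ ≤ 1 / 4) :
    ‖Complex.exp ((α + d) * I)‖ ≤ 2 ∧ ‖Complex.exp (-(α + d) * I)‖ ≤ 2 := by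
  have h1 := abs_le.1 ((Complex.abs_im_le_norm d).trans hd)
  constructor
  · rw [Complex.norm_exp]
    refine (Real.exp_le_exp.2 ?_).trans exp_quarter
    simp
    linarith [h1.1]
  · rw [Complex.norm_exp]
    refine (Real.exp_le_exp.2 ?_).trans exp_quarter
    simp
    linarith [h1.2]

theorem norm_sin_le {α : ℝ} {d : ℂ} (hd : ‖d‖ ≤ 1 / 4) : ‖Complex.sin (α + d)‖ ≤ 2 := by
  obtain ⟨h1, h2⟩ := norm_exp_le (α := α) hd
  unfold Complex.sin
  rw [norm_div, norm_mul, Complex.norm_I, mul_one, Complex.norm_ofNat]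
  rw [div_le_iff₀ (by norm_num)]
  refine (norm_sub_le _ _).trans ?_
  linarith

theorem norm_cos_le {α : ℝ} {d : ℂ} (hd : ‖d‖ ≤ 1 / 4) : ‖Complex.cos (α + d)‖ ≤ 2 := by
  obtain ⟨h1, h2⟩ := norm_exp_le (α := α) hd
  unfold Complex.cos
  rw [norm_div, Complex.norm_ofNat]
  rw [div_le_iff₀ (by norm_num)]
  refine (norm_add_le _ _).trans ?_
  linarith

theorem mem_cb {r : ℝ} {d : ℂ} : d ∈ closedBall (0 : ℂ) r ↔ ‖d‖ ≤ r := by simp

theorem hda_sin (α : ℝ) (x : ℂ) :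
    HasDerivAt (fun d : ℂ => Complex.sin (α + d)) (Complex.cos (α + x)) x := by
  have h := (((hasDerivAt_id x).const_add (α : ℂ))).csin
  simpa using h

theorem hda_cos (α : ℝ) (x : ℂ) :
    HasDerivAt (fun d : ℂ => Complex.cos (α + d)) (-Complex.sin (α + x)) x := by
  have h := (((hasDerivAt_id x).const_add (α : ℂ))).ccos
  simpa using h

theorem sin_lip {α : ℝ} {d d' : ℂ} (hd : ‖d‖ ≤ 1 / 4) (hd' : ‖d'‖ ≤ 1 / 4) :
    ‖Complex.sin (α + d) - Complex.sin (α + d')‖ ≤ 2 * ‖d - d'‖ := by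
  refine (convex_closedBall (0 : ℂ) (1 / 4)).norm_image_sub_le_of_norm_hasDerivWithin_le
    (f := fun d : ℂ => Complex.sin (α + d)) (f' := fun d : ℂ => Complex.cos (α + d))
    (fun x hx => ?_) (fun x hx => norm_cos_le (mem_cb.1 hx)) (mem_cb.2 hd') (mem_cb.2 hd)
  exact (hda_sin α x).hasDerivWithinAt

theorem cos_lip {α : ℝ} {d d' : ℂ} (hd : ‖d‖ ≤ 1 / 4) (hd' : ‖d'‖ ≤ 1 / 4) :
    ‖Complex.cos (α + d) - Complex.cos (α + d')‖ ≤ 2 * ‖d - d'‖ := by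
  refine (convex_closedBall (0 : ℂ) (1 / 4)).norm_image_sub_le_of_norm_hasDerivWithin_le
    (f := fun d : ℂ => Complex.cos (α + d)) (f' := fun d : ℂ => -Complex.sin (α + d))
    (fun x hx => ?_) (fun x hx => ?_) (mem_cb.2 hd') (mem_cb.2 hd)
  · exact (hda_cos α x).hasDerivWithinAt
  · rw [norm_neg]
    exact norm_sin_le (mem_cb.1 hx)

theorem Rm_lip {α ρ : ℝ} {d d' : ℂ} (hρ : ρ ≤ 1 / 4) (hd : ‖d‖ ≤ ρ) (hd' : ‖d'‖ ≤ ρ) :
    ‖Rm α d - Rm α d'‖ ≤ 2 * ρ * ‖d - d'‖ := by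
  refine (convex_closedBall (0 : ℂ) ρ).norm_image_sub_le_of_norm_hasDerivWithin_le
    (f := Rm α) (f' := fun d : ℂ => -Complex.sin (α + d) + Real.sin α)
    (fun x hx => ?_) (fun x hx => ?_) (mem_cb.2 hd') (mem_cb.2 hd)
  · have h2 := ((hda_cos α x).sub_const (Real.cos α : ℂ)).add
      ((hasDerivAt_id x).const_mul (Real.sin α : ℂ))
    have h3 : HasDerivAt (Rm α) (-Complex.sin (α + x) + Real.sin α * 1) x := h2
    rw [mul_one] at h3
    exact h3.hasDerivWithinAt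
  · have hx' := mem_cb.1 hx
    have h0 : (0 : ℝ) ≤ ρ := (norm_nonneg _).trans hx'
    have h := sin_lip (α := α) (d := 0) (d' := x) (by simp) (hx'.trans hρ)
    rw [add_zero, zero_sub, norm_neg, ← Complex.ofReal_sin] at h
    have e : -Complex.sin (α + x) + (Real.sin α : ℂ) = Real.sin α - Complex.sin (α + x) := by ring
    rw [e]
    linarith

/-- admissible families of functions on the sides -/
structure Adm (n : ℕ) (b e : ℝ) (G : ℕ → ℂ → ℂ) : Prop where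
  dif : ∀ j < n, DifferentiableOn ℂ (G j) (ball 0 b)
  bd : ∀ j < n, ∀ w ∈ ball (0 : ℂ) b, ‖G j w‖ ≤ e

section cauchy

variable {b e : ℝ} {g : ℂ → ℂ}

theorem der_bd (hb : 0 < b) (hg : DifferentiableOn ℂ g (ball 0 b))
    (hbd : ∀ w ∈ ball (0 : ℂ) b, ‖g w‖ ≤ e) {w : ℂ} (hw : ‖w‖ ≤ b / 2) :
    ‖deriv g w‖ ≤ 4 * e / b := by
  have hsub : closedBall w (b / 4) ⊆ ball (0 : ℂ) b := by
    intro z hz
    rw [mem_closedBall, dist_eq_norm] at hz
    rw [mem_ball_zero_iff]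
    have : ‖z‖ ≤ ‖z - w‖ + ‖w‖ := by
      have := norm_add_le (z - w) w
      rwa [sub_add_cancel] at this
    linarith
  have h := Complex.norm_deriv_le_of_forall_mem_sphere_norm_le (c := w) (R := b / 4) (C := e)
    (f := g) (by positivity) ((hg.mono hsub).diffContOnCl_ball subset_rfl)
    (fun z hz => hbd z (hsub (sphere_subset_closedBall hz)))
  refine h.trans (le_of_eq ?_)
  field_simp

theorem der_dif (hg : DifferentiableOn ℂ g (ball 0 b)) :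
    DifferentiableOn ℂ (deriv g) (ball 0 b) := hg.deriv isOpen_ball

theorem der2_bd (hb : 0 < b) (hg : DifferentiableOn ℂ g (ball 0 b))
    (hbd : ∀ w ∈ ball (0 : ℂ) b, ‖g w‖ ≤ e) {w : ℂ} (hw : ‖w‖ ≤ b / 4) :
    ‖deriv (deriv g) w‖ ≤ 32 * e / b ^ 2 := by
  have hin : ∀ z ∈ closedBall w (b / 8), ‖z‖ ≤ b / 2 := by
    intro z hz
    rw [mem_closedBall, dist_eq_norm] at hz
    have : ‖z‖ ≤ ‖z - w‖ + ‖w‖ := by
      have := norm_add_le (z - w) w
      rwa [sub_add_cancel] at this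
    linarith
  have hsub : closedBall w (b / 8) ⊆ ball (0 : ℂ) b := by
    intro z hz
    rw [mem_ball_zero_iff]
    have := hin z hz
    linarith
  have h := Complex.norm_deriv_le_of_forall_mem_sphere_norm_le (c := w) (R := b / 8)
    (C := 4 * e / b) (f := deriv g) (by positivity)
    (((der_dif hg).mono hsub).diffContOnCl_ball subset_rfl)
    (fun z hz => der_bd hb hg hbd (hin z (sphere_subset_closedBall hz)))
  refine h.trans (le_of_eq ?_)
  field_simp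
  ring

theorem val_lip (hb : 0 < b) (hg : DifferentiableOn ℂ g (ball 0 b))
    (hbd : ∀ w ∈ ball (0 : ℂ) b, ‖g w‖ ≤ e) {w w' : ℂ} (hw : ‖w‖ ≤ b / 4) (hw' : ‖w'‖ ≤ b / 4) :
    ‖g w - g w'‖ ≤ 4 * e / b * ‖w - w'‖ := by
  refine (convex_closedBall (0 : ℂ) (b / 4)).norm_image_sub_le_of_norm_deriv_le
    (fun x hx => ?_) (fun x hx => ?_) (mem_cb.2 hw') (mem_cb.2 hw)
  · have hx' := mem_cb.1 hx
    exact hg.differentiableAt (isOpen_ball.mem_nhds (by rw [mem_ball_zero_iff]; linarith))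
  · exact der_bd hb hg hbd ((mem_cb.1 hx).trans (by linarith))

theorem der_lip (hb : 0 < b) (hg : DifferentiableOn ℂ g (ball 0 b))
    (hbd : ∀ w ∈ ball (0 : ℂ) b, ‖g w‖ ≤ e) {w w' : ℂ} (hw : ‖w‖ ≤ b / 4) (hw' : ‖w'‖ ≤ b / 4) :
    ‖deriv g w - deriv g w'‖ ≤ 32 * e / b ^ 2 * ‖w - w'‖ := by
  refine (convex_closedBall (0 : ℂ) (b / 4)).norm_image_sub_le_of_norm_deriv_le
    (fun x hx => ?_) (fun x hx => ?_) (mem_cb.2 hw') (mem_cb.2 hw)
  · have hx' := mem_cb.1 hx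
    exact (der_dif hg).differentiableAt
      (isOpen_ball.mem_nhds (by rw [mem_ball_zero_iff]; linarith))
  · exact der2_bd hb hg hbd (mem_cb.1 hx)

end cauchy

theorem md_le {u : ℕ → ℂ} {j n : ℕ} (hj : j < n) {ρ : ℝ} (h : ∀ i ≤ n, ‖u i‖ ≤ ρ) :
    ‖md u j‖ ≤ ρ := by
  unfold md
  rw [norm_div, Complex.norm_ofNat]
  have h1 := h j hj.le
  have h2 := h (j + 1) hj
  have := norm_add_le (u j) (u (j + 1))
  rw [div_le_iff₀ (by norm_num)]
  linarith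

theorem df_le {u : ℕ → ℂ} {j n : ℕ} (hj : j < n) {ρ : ℝ} (h : ∀ i ≤ n, ‖u i‖ ≤ ρ) :
    ‖df u j‖ ≤ ρ := by
  unfold df
  rw [norm_div, Complex.norm_ofNat]
  have h1 := h j hj.le
  have h2 := h (j + 1) hj
  have := norm_sub_le (u (j + 1)) (u j)
  rw [div_le_iff₀ (by norm_num)]
  linarith

theorem md_sub (u v : ℕ → ℂ) (j : ℕ) : md u j - md v j = md (fun i => u i - v i) j := by
  unfold md; ring

theorem df_sub (u v : ℕ → ℂ) (j : ℕ) : df u j - df v j = df (fun i => u i - v i) j := by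
  unfold df; ring

/-- products -/
theorem mul_lip {a a' c c' : ℂ} {A C la lc δ : ℝ} (hA : ‖a‖ ≤ A) (hC : ‖c'‖ ≤ C)
    (h1 : ‖a - a'‖ ≤ la * δ) (h2 : ‖c - c'‖ ≤ lc * δ) :
    ‖a * c - a' * c'‖ ≤ (A * lc + la * C) * δ := by
  have e : a * c - a' * c' = a * (c - c') + (a - a') * c' := by ring
  rw [e]
  refine (norm_add_le _ _).trans ?_
  rw [norm_mul, norm_mul]
  have h3 : ‖a‖ * ‖c - c'‖ ≤ A * (lc * δ) :=
    mul_le_mul hA h2 (norm_nonneg _) ((norm_nonneg _).trans hA)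
  have h4 : ‖a - a'‖ * ‖c'‖ ≤ la * δ * C :=
    mul_le_mul h1 hC (norm_nonneg _) ((norm_nonneg _).trans h1)
  linarith

/-- Lipschitz bound of one side term -/
theorem side_lip {α b e : ℝ} (hb : 0 < b) (hb1 : b ≤ 1) (he : 0 ≤ e) {g : ℂ → ℂ}
    (hg : DifferentiableOn ℂ g (ball 0 b)) (hbd : ∀ w ∈ ball (0 : ℂ) b, ‖g w‖ ≤ e)
    {m m' d d' : ℂ} {δ : ℝ} (hm : ‖m‖ ≤ b / 4) (hm' : ‖m'‖ ≤ b / 4) (hd : ‖d‖ ≤ b / 4)
    (hd' : ‖d'‖ ≤ b / 4) (h1 : ‖m - m'‖ ≤ δ) (h2 : ‖d - d'‖ ≤ δ) :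
    ‖deriv g m * Complex.sin (α + d) - deriv g m' * Complex.sin (α + d')‖ ≤
        72 * e / b ^ 2 * δ ∧
      ‖g m * Complex.cos (α + d) - g m' * Complex.cos (α + d')‖ ≤ 10 * e / b ^ 2 * δ := by
  have hδ : 0 ≤ δ := (norm_nonneg _).trans h1
  have hq : b / 4 ≤ 1 / 4 := by linarith
  have hball : m ∈ ball (0 : ℂ) b := by rw [mem_ball_zero_iff]; linarith
  have hball' : m' ∈ ball (0 : ℂ) b := by rw [mem_ball_zero_iff]; linarith
  have a1 : ‖deriv g m‖ ≤ 4 * e / b := der_bd hb hg hbd (by linarith)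
  have a2 : ‖deriv g m - deriv g m'‖ ≤ 32 * e / b ^ 2 * δ :=
    (der_lip hb hg hbd hm hm').trans (mul_le_mul_of_nonneg_left h1 (by positivity))
  have a3 : ‖g m - g m'‖ ≤ 4 * e / b * δ :=
    (val_lip hb hg hbd hm hm').trans (mul_le_mul_of_nonneg_left h1 (by positivity))
  have c1 := sin_lip (α := α) (hd.trans hq) (hd'.trans hq)
  have c2 := cos_lip (α := α) (hd.trans hq) (hd'.trans hq)
  have c1' : ‖Complex.sin (α + d) - Complex.sin (α + d')‖ ≤ 2 * δ := c1.trans (by linarith)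
  have c2' : ‖Complex.cos (α + d) - Complex.cos (α + d')‖ ≤ 2 * δ := c2.trans (by linarith)
  have d1 := norm_sin_le (α := α) (hd'.trans hq)
  have d2 := norm_cos_le (α := α) (hd'.trans hq)
  have hbb : b ^ 2 ≤ b := by nlinarith
  have k1 : e / b ≤ e / b ^ 2 := div_le_div_of_nonneg_left he (by positivity) hbb
  have k2 : e ≤ e / b ^ 2 := by
    rw [le_div_iff₀ (by positivity)]
    nlinarith
  constructor
  · refine (mul_lip a1 d1 a2 c1').trans (mul_le_mul_of_nonneg_right ?_ hδ)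
    have e1 : 4 * e / b * 2 + 32 * e / b ^ 2 * 2 = 8 * (e / b) + 64 * (e / b ^ 2) := by ring
    have e2 : 72 * e / b ^ 2 = 8 * (e / b ^ 2) + 64 * (e / b ^ 2) := by ring
    rw [e1, e2]
    linarith
  · refine (mul_lip (hbd m hball) d2 a3 c2').trans (mul_le_mul_of_nonneg_right ?_ hδ)
    have e1 : e * 2 + 4 * e / b * 2 = 2 * e + 8 * (e / b) := by ring
    have e2 : 10 * e / b ^ 2 = 2 * (e / b ^ 2) + 8 * (e / b ^ 2) := by ring
    rw [e1, e2]
    linarith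

/-- Lipschitz bound of the nonlinear part -/
theorem Nl_lip {n : ℕ} {α b e ρ δ : ℝ} (hb : 0 < b) (hb1 : b ≤ 1) (he : 0 ≤ e)
    (hs : 0 < Real.sin α) (hρ : ρ ≤ b / 4) {G : ℕ → ℂ → ℂ} (hG : Adm n b e G) {u v : ℕ → ℂ}
    (hu : ∀ i ≤ n, ‖u i‖ ≤ ρ) (hv : ∀ i ≤ n, ‖v i‖ ≤ ρ) (hd : ∀ i ≤ n, ‖u i - v i‖ ≤ δ) {j : ℕ}
    (hj : j + 1 < n) :
    ‖Nl α G u j - Nl α G v j‖ ≤ 2 / Real.sin α * ((4 * ρ + 164 * e / b ^ 2) * δ) := by
  have hq : ρ ≤ 1 / 4 := by linarith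
  have hj0 : j < n := by omega
  have m1 := md_le hj0 hu
  have m2 := md_le hj0 hv
  have m3 := md_le hj hu
  have m4 := md_le hj hv
  have d1 := df_le hj0 hu
  have d2 := df_le hj0 hv
  have d3 := df_le hj hu
  have d4 := df_le hj hv
  have s1 : ‖md u j - md v j‖ ≤ δ := by rw [md_sub]; exact md_le hj0 hd
  have s2 : ‖md u (j + 1) - md v (j + 1)‖ ≤ δ := by rw [md_sub]; exact md_le hj hd
  have s3 : ‖df u j - df v j‖ ≤ δ := by rw [df_sub]; exact df_le hj0 hd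
  have s4 : ‖df u (j + 1) - df v (j + 1)‖ ≤ δ := by rw [df_sub]; exact df_le hj hd
  have hρ0 : 0 ≤ ρ := (norm_nonneg _).trans m1
  have r1 : ‖Rm α (df u j) - Rm α (df v j)‖ ≤ 2 * ρ * δ :=
    (Rm_lip hq d1 d2).trans (mul_le_mul_of_nonneg_left s3 (by positivity))
  have r2 : ‖Rm α (df u (j + 1)) - Rm α (df v (j + 1))‖ ≤ 2 * ρ * δ :=
    (Rm_lip hq d3 d4).trans (mul_le_mul_of_nonneg_left s4 (by positivity))
  obtain ⟨t1, t2⟩ := side_lip (α := α) hb hb1 he (hG.dif j hj0) (hG.bd j hj0)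
    (m1.trans hρ) (m2.trans hρ) (d1.trans hρ) (d2.trans hρ) s1 s3
  obtain ⟨t3, t4⟩ := side_lip (α := α) hb hb1 he (hG.dif (j + 1) hj) (hG.bd (j + 1) hj)
    (m3.trans hρ) (m4.trans hρ) (d3.trans hρ) (d4.trans hρ) s2 s4
  unfold Nl
  rw [← mul_sub, norm_mul]
  have hc : ‖(2 / Real.sin α : ℂ)‖ = 2 / Real.sin α := by
    rw [norm_div, Complex.norm_ofNat, Complex.norm_real, Real.norm_of_nonneg hs.le]
  rw [hc]
  refine mul_le_mul_of_nonneg_left ?_ (by positivity)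
  set A1 := Rm α (df u j)
  set A2 := Rm α (df v j)
  set A3 := Rm α (df u (j + 1))
  set A4 := Rm α (df v (j + 1))
  set B1 := deriv (G j) (md u j) * Complex.sin (α + df u j)
  set B2 := deriv (G j) (md v j) * Complex.sin (α + df v j)
  set B3 := deriv (G (j + 1)) (md u (j + 1)) * Complex.sin (α + df u (j + 1))
  set B4 := deriv (G (j + 1)) (md v (j + 1)) * Complex.sin (α + df v (j + 1))
  set C1 := G j (md u j) * Complex.cos (α + df u j)
  set C2 := G j (md v j) * Complex.cos (α + df v j)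
  set C3 := G (j + 1) (md u (j + 1)) * Complex.cos (α + df u (j + 1))
  set C4 := G (j + 1) (md v (j + 1)) * Complex.cos (α + df v (j + 1))
  have e1 : A1 - A3 + (B1 + C1) + (B3 - C3) - (A2 - A4 + (B2 + C2) + (B4 - C4)) =
      (A1 - A2) - (A3 - A4) + ((B1 - B2) + (C1 - C2)) + ((B3 - B4) - (C3 - C4)) := by ring
  rw [e1]
  have n1 := norm_sub_le (A1 - A2) (A3 - A4)
  have n2 := norm_add_le (B1 - B2) (C1 - C2)
  have n3 := norm_sub_le (B3 - B4) (C3 - C4)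
  have n4 := norm_add_le ((A1 - A2) - (A3 - A4)) ((B1 - B2) + (C1 - C2))
  have n5 := norm_add_le ((A1 - A2) - (A3 - A4) + ((B1 - B2) + (C1 - C2)))
    ((B3 - B4) - (C3 - C4))
  have e2 : (4 * ρ + 164 * e / b ^ 2) * δ = 2 * ρ * δ + 2 * ρ * δ + (72 * e / b ^ 2 * δ +
      10 * e / b ^ 2 * δ) + (72 * e / b ^ 2 * δ + 10 * e / b ^ 2 * δ) := by ring
  rw [e2]
  linarith

/-- the nonlinear part at `0` -/
theorem Nl_zero {n : ℕ} {α b e : ℝ} (hb : 0 < b) (hb1 : b ≤ 1) (he : 0 ≤ e)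
    (hs : 0 < Real.sin α) {G : ℕ → ℂ → ℂ} (hG : Adm n b e G) {j : ℕ} (hj : j + 1 < n) :
    ‖Nl α G (fun _ => 0) j‖ ≤ 20 * e / (b * Real.sin α) := by
  have hj0 : j < n := by omega
  have m0 : ∀ j, md (fun _ => (0 : ℂ)) j = 0 := fun j => by simp [md]
  have d0 : ∀ j, df (fun _ => (0 : ℂ)) j = 0 := fun j => by simp [df]
  unfold Nl
  rw [m0, m0, d0, d0, norm_mul, sub_self, zero_add, add_zero]
  have hc : ‖(2 / Real.sin α : ℂ)‖ = 2 / Real.sin α := by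
    rw [norm_div, Complex.norm_ofNat, Complex.norm_real, Real.norm_of_nonneg hs.le]
  rw [hc, ← Complex.ofReal_sin, ← Complex.ofReal_cos]
  have s1 : ‖((Real.sin α : ℝ) : ℂ)‖ ≤ 1 := by
    rw [Complex.norm_real, Real.norm_eq_abs]; exact Real.abs_sin_le_one α
  have s2 : ‖((Real.cos α : ℝ) : ℂ)‖ ≤ 1 := by
    rw [Complex.norm_real, Real.norm_eq_abs]; exact Real.abs_cos_le_one α
  have h0 : (0 : ℂ) ∈ ball (0 : ℂ) b := by rw [mem_ball_zero_iff]; simpa using hb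
  have a1 : ‖deriv (G j) 0‖ ≤ 4 * e / b :=
    der_bd hb (hG.dif j hj0) (hG.bd j hj0) (by simp; positivity)
  have a2 : ‖deriv (G (j + 1)) 0‖ ≤ 4 * e / b :=
    der_bd hb (hG.dif (j + 1) hj) (hG.bd (j + 1) hj) (by simp; positivity)
  have a3 := hG.bd j hj0 0 h0
  have a4 := hG.bd (j + 1) hj 0 h0
  have p1 : ‖deriv (G j) 0 * ((Real.sin α : ℝ) : ℂ)‖ ≤ 4 * e / b := by
    rw [norm_mul]
    calc _ ≤ 4 * e / b * 1 := mul_le_mul a1 s1 (norm_nonneg _) (by positivity)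
      _ = _ := mul_one _
  have p2 : ‖deriv (G (j + 1)) 0 * ((Real.sin α : ℝ) : ℂ)‖ ≤ 4 * e / b := by
    rw [norm_mul]
    calc _ ≤ 4 * e / b * 1 := mul_le_mul a2 s1 (norm_nonneg _) (by positivity)
      _ = _ := mul_one _
  have p3 : ‖G j 0 * ((Real.cos α : ℝ) : ℂ)‖ ≤ e := by
    rw [norm_mul]
    calc _ ≤ e * 1 := mul_le_mul a3 s2 (norm_nonneg _) he
      _ = _ := mul_one _
  have p4 : ‖G (j + 1) 0 * ((Real.cos α : ℝ) : ℂ)‖ ≤ e := by
    rw [norm_mul]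
    calc _ ≤ e * 1 := mul_le_mul a4 s2 (norm_nonneg _) he
      _ = _ := mul_one _
  have heb : e ≤ e / b := by
    rw [le_div_iff₀ hb]; nlinarith
  have e3 : 20 * e / (b * Real.sin α) = 2 / Real.sin α * (4 * e / b + e / b + (4 * e / b + e / b)) := by
    field_simp
    ring
  rw [e3]
  refine mul_le_mul_of_nonneg_left ?_ (by positivity)
  have n1 := norm_add_le (deriv (G j) 0 * ((Real.sin α : ℝ) : ℂ)) (G j 0 * ((Real.cos α : ℝ) : ℂ))
  have n2 := norm_sub_le (deriv (G (j + 1)) 0 * ((Real.sin α : ℝ) : ℂ))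
    (G (j + 1) 0 * ((Real.cos α : ℝ) : ℂ))
  refine (norm_add_le _ _).trans ?_
  linarith

end Vale.Agent.P097.H795.D1
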