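import Vale.Agent.P097.D1G.Cau

set_option linter.all false

/-!
# P097, disc case: limits of graded sequences (LIM1)
-/

namespace Vale.Agent.P097.H795.D1

open Filter Set Metric Topology
open Vale.Agent.P097.D1G

/-- truncated sequences: bounds -/
theorem tr_supp (r : ℕ) (x : ℤ → ℂ) (k : ℤ) (hk : (r : ℤ) < |k|) : tr r x k = 0 := by
  unfold tr
  rw [if_neg (not_le.2 hk)]

theorem rot_tr (r : ℕ) (lam : ℂ) (x : ℤ → ℂ) : D1G.rot lam (tr r x) = tr r (D1G.rot lam x) := by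
  funext k
  unfold D1G.rot tr
  split_ifs <;> simp

theorem tr_smul (r : ℕ) (t : ℂ) (x : ℤ → ℂ) : tr r (t • x) = t • tr r x := by
  funext k
  unfold tr
  simp only [Pi.smul_apply, smul_eq_mul]
  split_ifs <;> simp

theorem tr_add (r : ℕ) (x y : ℤ → ℂ) : tr r (x + y) = tr r x + tr r y := by
  funext k
  unfold tr
  simp only [Pi.add_apply]
  split_ifs <;> simp

/-- convergence in norm of truncated sequences -/
theorem tr_tendsto {b : ℝ} (hb : 0 ≤ b) (r : ℕ) {x : ℕ → ℤ → ℂ} {y : ℤ → ℂ}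
    (h : ∀ k : ℤ, |k| ≤ (r : ℤ) → Tendsto (fun j => x j k) atTop (𝓝 (y k))) :
    Tendsto (fun j => nm b (tr r (x j) - tr r y)) atTop (𝓝 0) := by
  have hs : ∀ j, ∀ k ∉ Finset.Icc (-(r : ℤ)) r,
      ‖(tr r (x j) - tr r y) k‖ * Real.exp (b * |(k : ℝ)|) = 0 := by
    intro j k hk
    rw [Finset.mem_Icc, ← abs_le, not_le] at hk
    rw [Pi.sub_apply, tr_supp r _ k hk, tr_supp r _ k hk, sub_zero, norm_zero, zero_mul]
  have e1 : (fun j => nm b (tr r (x j) - tr r y)) = fun j => ∑ k ∈ Finset.Icc (-(r : ℤ)) r,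
      ‖(tr r (x j) - tr r y) k‖ * Real.exp (b * |(k : ℝ)|) := by
    funext j
    unfold nm
    exact tsum_eq_sum (hs j)
  rw [e1]
  have h2 : Tendsto (fun j => ∑ k ∈ Finset.Icc (-(r : ℤ)) r,
      ‖(tr r (x j) - tr r y) k‖ * Real.exp (b * |(k : ℝ)|)) atTop
      (𝓝 (∑ k ∈ Finset.Icc (-(r : ℤ)) (r : ℤ), (0 : ℝ))) := by
    refine tendsto_finsetSum _ fun k hk => ?_
    rw [Finset.mem_Icc, ← abs_le] at hk
    have h3 : Tendsto (fun j => ‖x j k - y k‖) atTop (𝓝 0) := by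
      have := (h k hk).sub_const (y k)
      rw [sub_self] at this
      simpa using this.norm
    have h4 := h3.mul_const (Real.exp (b * |(k : ℝ)|))
    rw [zero_mul] at h4
    refine h4.congr fun j => ?_
    unfold tr
    rw [Pi.sub_apply, if_pos hk, if_pos hk]
  simpa using h2

theorem sm_tr {b : ℝ} (hb : 0 ≤ b) (r : ℕ) (x : ℤ → ℂ) : Sm b (tr r x) := by
  unfold Sm
  refine summable_of_ne_finset_zero (s := Finset.Icc (-(r : ℤ)) r) fun k hk => ?_
  rw [Finset.mem_Icc, ← abs_le, not_le] at hk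
  rw [tr_supp r _ k hk, norm_zero, zero_mul]

theorem graded_tr {C δ β : ℝ} (hC : 0 ≤ C) (hδ0 : 0 < δ) (hδ1 : δ ≤ 1) {r : ℕ} {a : ℤ → ℂ}
    (hbd : ∀ k : ℤ, ‖a k‖ ≤ C * δ ^ min k.natAbs r * Real.exp (-(β * |(k : ℝ)|)))
    (hlow : ∀ k : ℤ, |k| ≤ 1 → a k = 0) (k : ℤ) :
    ‖tr r a k‖ ≤ C * δ ^ 2 * Real.exp (-(β * |(k : ℝ)|)) := by
  unfold tr
  split_ifs with h
  · rcases le_or_gt |k| 1 with h1 | h1
    · rw [hlow k h1, norm_zero]
      positivity
    · refine (hbd k).trans (mul_le_mul_of_nonneg_right (mul_le_mul_of_nonneg_left ?_ hC)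
        (Real.exp_nonneg _))
      have h2 : min k.natAbs r = k.natAbs := by
        rw [min_eq_left]
        rw [Int.abs_eq_natAbs] at h
        exact_mod_cast h
      rw [h2]
      refine pow_le_pow_of_le_one hδ0.le hδ1 ?_
      rw [Int.abs_eq_natAbs] at h1
      exact_mod_cast h1
  · rw [norm_zero]
    positivity

theorem graded_tl {C δ β : ℝ} (hC : 0 ≤ C) (hδ0 : 0 < δ) (hδ1 : δ ≤ 1) {r : ℕ} {a : ℤ → ℂ}
    (hbd : ∀ k : ℤ, ‖a k‖ ≤ C * δ ^ min k.natAbs r * Real.exp (-(β * |(k : ℝ)|))) (k : ℤ) :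
    ‖(a - tr r a) k‖ ≤ C * δ ^ r * Real.exp (-(β * |(k : ℝ)|)) := by
  rw [Pi.sub_apply]
  unfold tr
  split_ifs with h
  · rw [sub_self, norm_zero]
    positivity
  · rw [sub_zero]
    refine (hbd k).trans (mul_le_mul_of_nonneg_right (mul_le_mul_of_nonneg_left ?_ hC)
      (Real.exp_nonneg _))
    have h2 : min k.natAbs r = r := by
      rw [min_eq_right]
      rw [Int.abs_eq_natAbs] at h
      push Not at h
      exact_mod_cast h.le
    rw [h2]

theorem tl_low {r m : ℕ} (hm : m ≤ r) (a : ℤ → ℂ) : (a - tr r a) (m : ℤ) = 0 := by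
  rw [Pi.sub_apply]
  unfold tr
  rw [if_pos (by rw [abs_of_nonneg (by positivity)]; exact_mod_cast hm), sub_self]

section
variable {b R M : ℝ} {m : ℕ} {L : ℂ} {F : (ℤ → ℂ) → ℂ}

/-- value at the truncation of a solution -/
theorem F_tr_le (hF : Fun b R M m L F) {β C δ : ℝ} (hbβ : b < β) (hm : 1 ≤ m) {r : ℕ}
    (hmr : m ≤ r) (hC : 0 ≤ C) (hδ0 : 0 < δ) (hδ1 : δ ≤ 1) {a : ℤ → ℂ}
    (hbd : ∀ k : ℤ, ‖a k‖ ≤ C * δ ^ min k.natAbs r * Real.exp (-(β * |(k : ℝ)|)))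
    (hlow : ∀ k : ℤ, |k| ≤ 1 → a k = 0) (hFa : F a = 0)
    (hsm : C * Z (β - b) * δ ≤ R / 8) :
    ‖F (tr r a)‖ ≤ 128 * M / R ^ 2 * (C * Z (β - b)) ^ 2 * δ ^ (r + 1) := by
  have hR := hF.hR
  have hM := hF.hM
  have hZ := Z_nonneg (β - b)
  obtain ⟨s1, n1⟩ := sm_of_bound hbβ (graded_tr hC hδ0 hδ1 hbd hlow)
  obtain ⟨s2, n2⟩ := sm_of_bound hbβ (graded_tl hC hδ0 hδ1 hbd)
  have hd2 : δ ^ 2 ≤ δ := by nlinarith
  have hr1 : 1 ≤ r := hm.trans hmr
  have hdr : δ ^ r ≤ δ := by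
    calc δ ^ r ≤ δ ^ 1 := pow_le_pow_of_le_one hδ0.le hδ1 hr1
      _ = δ := pow_one δ
  have hK : 0 ≤ C * Z (β - b) := mul_nonneg hC hZ
  have n1' : nm b (tr r a) ≤ C * Z (β - b) * δ := by
    refine n1.trans ?_
    calc C * δ ^ 2 * Z (β - b) = C * Z (β - b) * δ ^ 2 := by ring
      _ ≤ C * Z (β - b) * δ := mul_le_mul_of_nonneg_left hd2 hK
  have n2' : nm b (a - tr r a) ≤ C * Z (β - b) * δ := by
    refine n2.trans ?_
    calc C * δ ^ r * Z (β - b) = C * Z (β - b) * δ ^ r := by ring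
      _ ≤ C * Z (β - b) * δ := mul_le_mul_of_nonneg_left hdr hK
  have h3 := P3 hF hm s1 s2 (n1'.trans hsm) (n2'.trans hsm)
  rw [add_sub_cancel, hFa, tl_low hmr, mul_zero, sub_zero, zero_sub, norm_neg] at h3
  refine h3.trans ?_
  have h4 : nm b (a - tr r a) * (nm b (tr r a) + nm b (a - tr r a)) ≤
      (C * Z (β - b) * δ ^ r) * (2 * (C * Z (β - b) * δ)) := by
    refine mul_le_mul (n2.trans (le_of_eq (by ring))) (by linarith)
      (add_nonneg (nm_nonneg _ _) (nm_nonneg _ _)) (by positivity)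
  calc 64 * M / R ^ 2 * nm b (a - tr r a) * (nm b (tr r a) + nm b (a - tr r a))
      = 64 * M / R ^ 2 * (nm b (a - tr r a) * (nm b (tr r a) + nm b (a - tr r a))) := by ring
    _ ≤ 64 * M / R ^ 2 * ((C * Z (β - b) * δ ^ r) * (2 * (C * Z (β - b) * δ))) :=
        mul_le_mul_of_nonneg_left h4 (by positivity)
    _ = _ := by rw [pow_succ]; ring

/-- convergence of the rotated truncated sequences -/
theorem rot_tendsto {β C : ℝ} (hb : 0 ≤ b) (hβ : 0 ≤ β) {a : ℕ → ℤ → ℂ} {δ ν : ℕ → ℝ} {r : ℕ} {c : ℕ → ℂ}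
    (hδ : ∀ j, 0 < δ j) (hδ0 : Tendsto δ atTop (𝓝 0)) (hν : ∀ j, 0 < ν j)
    (hbd : ∀ j k, ‖a j k‖ ≤ C * ν j * δ j ^ min k.natAbs r * Real.exp (-(β * |(k : ℝ)|)))
    (hc : ∀ k : ℕ, Tendsto (fun j => a j k / ((ν j : ℂ) * (δ j : ℂ) ^ k)) atTop (𝓝 (c k)))
    {s : ℂ} (hs : s ≠ 0) :
    Tendsto (fun j => nm b (D1G.rot (s / δ j) (tr r ((ν j : ℂ)⁻¹ • a j)) -
      D1G.rot s (tr r (os c)))) atTop (𝓝 0) := by
  have e1 : (fun j => nm b (D1G.rot (s / δ j) (tr r ((ν j : ℂ)⁻¹ • a j)) -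
      D1G.rot s (tr r (os c)))) = fun j =>
      nm b (tr r (D1G.rot (s / δ j) ((ν j : ℂ)⁻¹ • a j)) - tr r (D1G.rot s (os c))) := by
    funext j
    rw [rot_tr, rot_tr]
  rw [e1]
  refine tr_tendsto hb r fun k hk => ?_
  rcases le_or_gt 0 k with h0 | h0
  · lift k to ℕ using h0
    have h1 : D1G.rot s (os c) (k : ℤ) = s ^ k * c k := by
      unfold D1G.rot os
      rw [if_pos (by positivity), zpow_natCast, Int.toNat_natCast]
    rw [h1]
    refine ((hc k).const_mul (s ^ k)).congr fun j => ?_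
    unfold D1G.rot
    rw [zpow_natCast, div_pow, Pi.smul_apply, smul_eq_mul]
    have hd : (δ j : ℂ) ≠ 0 := by exact_mod_cast (hδ j).ne'
    have hn : (ν j : ℂ) ≠ 0 := by exact_mod_cast (hν j).ne'
    field_simp
  · obtain ⟨n, hn⟩ : ∃ n : ℕ, k = -(n : ℤ) := ⟨k.natAbs, by omega⟩
    have hn1 : 1 ≤ n := by omega
    have h1 : D1G.rot s (os c) k = 0 := by
      unfold D1G.rot os
      rw [if_neg (not_le.2 h0), mul_zero]
    rw [h1, tendsto_zero_iff_norm_tendsto_zero]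
    have h2 : Tendsto (fun j => ‖s‖⁻¹ ^ n * (|C| * δ j)) atTop (𝓝 0) := by
      have := (hδ0.const_mul |C|).const_mul (‖s‖⁻¹ ^ n)
      simpa using this
    have hev : ∀ᶠ j in atTop, δ j ≤ 1 := (hδ0.eventually_lt_const one_pos).mono fun j h => h.le
    refine squeeze_zero' (Eventually.of_forall fun j => norm_nonneg _) ?_ h2
    filter_upwards [hev] with j hj
    have hd := hδ j
    have hnj := hν j
    unfold D1G.rot
    rw [hn, zpow_neg, zpow_natCast, div_pow, inv_div, Pi.smul_apply, smul_eq_mul, norm_mul,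
      norm_div, norm_pow, norm_pow, norm_mul, norm_inv, Complex.norm_real, Complex.norm_real,
      Real.norm_of_nonneg hd.le, Real.norm_of_nonneg hnj.le]
    have h3 := hbd j (-(n : ℤ))
    have h4 : ‖a j (-(n : ℤ))‖ ≤ |C| * ν j := by
      refine h3.trans ?_
      have h5 : Real.exp (-(β * |((-(n : ℤ) : ℤ) : ℝ)|)) ≤ 1 := by
        rw [Real.exp_le_one_iff]
        have := mul_nonneg hβ (abs_nonneg (((-(n : ℤ) : ℤ) : ℝ)))
        linarith
      have h6 : δ j ^ min (-(n : ℤ)).natAbs r ≤ 1 := pow_le_one₀ hd.le hj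
      have h7 : (0 : ℝ) ≤ δ j ^ min (-(n : ℤ)).natAbs r := by positivity
      calc C * ν j * δ j ^ min (-(n : ℤ)).natAbs r * Real.exp (-(β * |((-(n : ℤ) : ℤ) : ℝ)|))
          ≤ |C| * ν j * 1 * 1 := by
            refine mul_le_mul (mul_le_mul (mul_le_mul_of_nonneg_right (le_abs_self C) hnj.le) h6
              h7 (by positivity)) h5 (Real.exp_nonneg _) (by positivity)
        _ = _ := by ring
    have h8 : (ν j)⁻¹ * ‖a j (-(n : ℤ))‖ ≤ |C| := by
      rw [inv_mul_le_iff₀ hnj]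
      linarith
    have h9 : δ j ^ n ≤ δ j := by
      calc δ j ^ n ≤ δ j ^ 1 := pow_le_pow_of_le_one hd.le hj hn1
        _ = δ j := pow_one _
    calc δ j ^ n / ‖s‖ ^ n * ((ν j)⁻¹ * ‖a j (-(n : ℤ))‖) ≤ δ j / ‖s‖ ^ n * |C| := by
          refine mul_le_mul (div_le_div_of_nonneg_right h9 (by positivity)) h8
            (by positivity) (by positivity)
      _ = ‖s‖⁻¹ ^ n * (|C| * δ j) := by
          rw [inv_pow]
          ring

/-- small one-sided sequences -/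
theorem os_small {b β C : ℝ} (hbβ : b < β) (hC : 0 ≤ C) {r : ℕ} {c : ℕ → ℂ} (hc0 : c 0 = 0)
    (hcb : ∀ k : ℕ, k ≤ r → ‖c k‖ ≤ C * Real.exp (-(β * (k : ℝ)))) {s : ℂ} (hs : ‖s‖ ≤ 1) :
    Sm b (D1G.rot s (tr r (os c))) ∧ nm b (D1G.rot s (tr r (os c))) ≤ C * ‖s‖ * Z (β - b) := by
  refine sm_of_bound hbβ fun k => ?_
  unfold D1G.rot tr os
  split_ifs with h1 h2
  · lift k to ℕ using h2
    rw [zpow_natCast, Int.toNat_natCast, norm_mul, norm_pow]
    rw [abs_of_nonneg (by positivity)] at h1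
    have hk : k ≤ r := by exact_mod_cast h1
    rcases Nat.eq_zero_or_pos k with h0 | h0
    · subst h0
      rw [hc0, norm_zero, mul_zero]
      positivity
    · have h3 : ‖s‖ ^ k ≤ ‖s‖ := by
        calc ‖s‖ ^ k ≤ ‖s‖ ^ 1 := pow_le_pow_of_le_one (norm_nonneg _) hs h0
          _ = ‖s‖ := pow_one _
      have h4 : |((k : ℤ) : ℝ)| = (k : ℝ) := by
        rw [Int.cast_natCast, abs_of_nonneg (by positivity)]
      rw [h4]
      calc ‖s‖ ^ k * ‖c k‖ ≤ ‖s‖ * (C * Real.exp (-(β * (k : ℝ)))) :=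
            mul_le_mul h3 (hcb k hk) (norm_nonneg _) (norm_nonneg _)
        _ = _ := by ring
  · rw [mul_zero, norm_zero]
    positivity
  · rw [mul_zero, norm_zero]
    positivity

/-- bound of the limit coefficients -/
theorem lim_bound {β C : ℝ} {a : ℕ → ℤ → ℂ} {δ ν : ℕ → ℝ} {r : ℕ} {c : ℕ → ℂ}
    (hδ : ∀ j, 0 < δ j) (hν : ∀ j, 0 < ν j)
    (hbd : ∀ j k, ‖a j k‖ ≤ C * ν j * δ j ^ min k.natAbs r * Real.exp (-(β * |(k : ℝ)|)))
    (hc : ∀ k : ℕ, Tendsto (fun j => a j k / ((ν j : ℂ) * (δ j : ℂ) ^ k)) atTop (𝓝 (c k)))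
    (k : ℕ) (hk : k ≤ r) : ‖c k‖ ≤ C * Real.exp (-(β * (k : ℝ))) := by
  refine le_of_tendsto' (hc k).norm fun j => ?_
  have hd := hδ j
  have hn := hν j
  rw [norm_div, norm_mul, norm_pow, Complex.norm_real, Complex.norm_real,
    Real.norm_of_nonneg hd.le, Real.norm_of_nonneg hn.le, div_le_iff₀ (by positivity)]
  have h := hbd j (k : ℤ)
  rw [Int.natAbs_natCast, min_eq_left hk, Int.cast_natCast,
    abs_of_nonneg (Nat.cast_nonneg k)] at h
  refine h.trans (le_of_eq ?_)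
  ring

end

theorem lim1 : D1G.LIM1 := by
  intro b β R M m L F hb hbβ hm hF a δ C r c hmr hδ hδ0 hbd hlow hFa hc
  have hR := hF.hR
  have hM := hF.hM
  have hβ : 0 ≤ β := (hb.trans hbβ).le
  have hC : 0 ≤ C := by
    have h := (norm_nonneg _).trans (hbd 0 0)
    simpa using h
  have hZ := Z_nonneg (β - b)
  have hbd' : ∀ j k, ‖a j k‖ ≤ C * (1 : ℝ) * δ j ^ min k.natAbs r *
      Real.exp (-(β * |(k : ℝ)|)) := fun j k => by rw [mul_one]; exact hbd j k
  have hc' : ∀ k : ℕ, Tendsto (fun j => a j k / (((1 : ℝ) : ℂ) * (δ j : ℂ) ^ k)) atTop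
      (𝓝 (c k)) := fun k => by simpa using hc k
  have hc0 : c 0 = 0 := by
    have h1 : Tendsto (fun j => a j ((0 : ℕ) : ℤ) / (δ j : ℂ) ^ 0) atTop (𝓝 0) := by
      refine tendsto_const_nhds.congr fun j => ?_
      rw [Nat.cast_zero, hlow j 0 (by simp), zero_div]
    exact tendsto_nhds_unique (hc 0) h1
  have hcb : ∀ k : ℕ, k ≤ r → ‖c k‖ ≤ C * Real.exp (-(β * (k : ℝ))) := fun k hk =>
    lim_bound (ν := fun _ => 1) hδ (fun _ => one_pos) hbd' hc' k hk
  set K := C * Z (β - b) with hK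
  have hK0 : 0 ≤ K := mul_nonneg hC hZ
  refine ⟨min 1 (R / (8 * (K + 1))), by positivity, fun s hs => ?_⟩
  have hs1 : ‖s‖ ≤ 1 := (hs.trans_le (min_le_left _ _)).le
  have hs2 : ‖s‖ ≤ R / (8 * (K + 1)) := (hs.trans_le (min_le_right _ _)).le
  rcases eq_or_ne s 0 with h0 | h0
  · subst h0
    have e : D1G.rot 0 (tr r (os c)) = 0 := by
      funext k
      unfold D1G.rot tr os
      rcases eq_or_ne k 0 with hk | hk
      · subst hk
        simp [hc0]
      · rw [zero_zpow k hk, zero_mul]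
        rfl
    rw [e]
    exact F_zero hF hm
  obtain ⟨sY, nY⟩ := os_small hbβ hC hc0 hcb hs1
  have nY' : nm b (D1G.rot s (tr r (os c))) ≤ R / 8 := by
    refine nY.trans ?_
    calc C * ‖s‖ * Z (β - b) = K * ‖s‖ := by rw [hK]; ring
      _ ≤ (K + 1) * (R / (8 * (K + 1))) :=
        mul_le_mul (by linarith) hs2 (norm_nonneg _) (by linarith)
      _ = R / 8 := by field_simp
  have hlim := rot_tendsto (b := b) hb.le hβ (ν := fun _ => 1) hδ hδ0 (fun _ => one_pos) hbd' hc' h0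
  simp only [Complex.ofReal_one, inv_one, one_smul] at hlim
  set Y := D1G.rot s (tr r (os c)) with hY
  set x : ℕ → ℤ → ℂ := fun j => D1G.rot (s / δ j) (tr r (a j)) with hx
  have sx : ∀ j, Sm b (x j) := fun j => by
    simp only [hx]
    rw [rot_tr]
    exact sm_tr hb.le r _
  have hFx : Tendsto (fun j => F (x j)) atTop (𝓝 (F Y)) := by
    rw [tendsto_iff_norm_sub_tendsto_zero]
    have h1 : Tendsto (fun j => 4 * M / R * nm b (x j - Y)) atTop (𝓝 0) := by
      have := hlim.const_mul (4 * M / R)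
      rwa [mul_zero] at this
    refine squeeze_zero' (Eventually.of_forall fun j => norm_nonneg _) ?_ h1
    filter_upwards [hlim.eventually_lt_const (show (0 : ℝ) < R / 4 by positivity)] with j hj
    have h2 := lipF hF sY ((sx j).sub sY) (by linarith) hj.le
    rwa [add_sub_cancel] at h2
  have hFx0 : Tendsto (fun j => F (x j)) atTop (𝓝 0) := by
    rw [tendsto_zero_iff_norm_tendsto_zero]
    have h1 : Tendsto (fun j => 128 * M / R ^ 2 * K ^ 2 * δ j) atTop (𝓝 0) := by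
      have := hδ0.const_mul (128 * M / R ^ 2 * K ^ 2)
      rwa [mul_zero] at this
    refine squeeze_zero' (Eventually.of_forall fun j => norm_nonneg _) ?_ h1
    have e1 : ∀ᶠ j in atTop, δ j < 1 := hδ0.eventually_lt_const one_pos
    have e2 : ∀ᶠ j in atTop, K * δ j < R / 8 := by
      have : Tendsto (fun j => K * δ j) atTop (𝓝 0) := by
        have := hδ0.const_mul K
        rwa [mul_zero] at this
      exact this.eventually_lt_const (by positivity)
    filter_upwards [e1, e2, hlim.eventually_lt_const (show (0 : ℝ) < R / 4 by positivity)]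
      with j h1 h2 h3
    have hd := hδ j
    have h4 := F_tr_le hF hbβ hm hmr hC hd h1.le (hbd j) (hlow j) (hFa j) h2.le
    have hlam : s / (δ j : ℂ) ≠ 0 := div_ne_zero h0 (by exact_mod_cast hd.ne')
    have hnx : nm b (x j) < R := by
      have h5 := nm_add_le sY ((sx j).sub sY)
      rw [add_sub_cancel] at h5
      linarith
    have hnt : nm b (tr r (a j)) < R := by
      obtain ⟨s1, n1⟩ := sm_of_bound hbβ (graded_tr hC hd h1.le (hbd j) (hlow j))
      have hd2 : δ j ^ 2 ≤ δ j := by nlinarith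
      have : C * δ j ^ 2 * Z (β - b) ≤ K * δ j := by
        calc C * δ j ^ 2 * Z (β - b) = K * δ j ^ 2 := by rw [hK]; ring
          _ ≤ K * δ j := mul_le_mul_of_nonneg_left hd2 hK0
      linarith
    have h6 := hF.rot (s / δ j) hlam (tr r (a j)) (sm_tr hb.le r _) (sx j) hnt hnx
    simp only [hx]
    rw [h6, norm_mul, norm_pow, norm_div, Complex.norm_real, Real.norm_of_nonneg hd.le]
    have h7 : (‖s‖ / δ j) ^ m ≤ (1 / δ j) ^ m :=
      pow_le_pow_left₀ (by positivity) (div_le_div_of_nonneg_right hs1 hd.le) m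
    have h8 : (1 / δ j) ^ m * δ j ^ (r + 1) ≤ δ j := by
      have h9 : (1 / δ j) ^ m * δ j ^ (r + 1) = δ j ^ (r - m) * δ j := by
        have e : r + 1 = m + (r - m) + 1 := by omega
        rw [e, pow_succ, pow_add, one_div, inv_pow]
        field_simp
      rw [h9]
      have : δ j ^ (r - m) ≤ 1 := pow_le_one₀ hd.le h1.le
      nlinarith
    have hK2 : 0 ≤ 128 * M / R ^ 2 * K ^ 2 := by positivity
    calc (‖s‖ / δ j) ^ m * ‖F (tr r (a j))‖
        ≤ (1 / δ j) ^ m * (128 * M / R ^ 2 * K ^ 2 * δ j ^ (r + 1)) :=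
          mul_le_mul h7 h4 (norm_nonneg _) (by positivity)
      _ = 128 * M / R ^ 2 * K ^ 2 * ((1 / δ j) ^ m * δ j ^ (r + 1)) := by ring
      _ ≤ 128 * M / R ^ 2 * K ^ 2 * δ j := mul_le_mul_of_nonneg_left h8 hK2
  exact tendsto_nhds_unique hFx hFx0

end Vale.Agent.P097.H795.D1
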